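import Vale.Agent.P346.Dec

/-! Leading monomials of the ideal generated by the hard polynomial, modulo squares. -/

namespace Vale.Agent.P346

open MvPolynomial

variable {F : Type*} [Field F]

/-- the row space of any set of rows is in general position -/
def MDS {n : ℕ} (G : Fin n → Fin n → F) : Prop :=
  ∀ (A P : Finset (Fin n)) (c : Fin n), c ∉ P → P.card < A.card →
    ∃ lam : Fin n → F, (∑ b ∈ A, lam b * G b c = 1) ∧ ∀ p ∈ P, ∑ b ∈ A, lam b * G b p = 0

lemma exists_MDS [Infinite F] (n : ℕ) : ∃ G : Fin n → Fin n → F, MDS G := by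
  classical
  let emb := Infinite.natEmbedding F
  let s : Fin n → F := fun a => emb a
  let t : Fin n → F := fun b => emb (n + b)
  have hs : Function.Injective s := fun a b h => Fin.ext (emb.injective h)
  have ht : Function.Injective t := fun a b h => Fin.ext (by have := emb.injective h; omega)
  have hst : ∀ a b, t b ≠ s a := fun a b h => by
    have := emb.injective h
    have := a.2
    omega
  refine ⟨fun a b => (t b - s a)⁻¹, ?_⟩
  intro A P c hc hcard
  let N := Lagrange.nodal P t
  have hN : N = Lagrange.interpolate A s fun i => N.eval (s i) :=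
    Lagrange.eq_interpolate hs.injOn (by
      rw [Lagrange.degree_nodal]; exact_mod_cast hcard)
  let H : Fin n → F := fun b =>
    ∑ a ∈ A, Lagrange.nodalWeight A s a * (t b - s a)⁻¹ * N.eval (s a)
  have hH : ∀ b, N.eval (t b) = (Lagrange.nodal A s).eval (t b) * H b := by
    intro b
    conv_lhs => rw [hN]
    exact Lagrange.eval_interpolate_not_at_node _ fun i _ => hst i b
  have hD : ∀ b, (Lagrange.nodal A s).eval (t b) ≠ 0 := fun b =>
    Lagrange.eval_nodal_not_at_node fun i _ => hst i b
  have hc' : H c ≠ 0 := by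
    have : N.eval (t c) ≠ 0 :=
      Lagrange.eval_nodal_not_at_node fun i hi h => hc (ht h ▸ hi)
    rw [hH] at this
    exact right_ne_zero_of_mul this
  have hsum : ∀ b, ∑ a ∈ A, Lagrange.nodalWeight A s a * N.eval (s a) * (H c)⁻¹ * (t b - s a)⁻¹
      = H b * (H c)⁻¹ := by
    intro b
    simp only [H]
    rw [Finset.sum_mul]
    exact Finset.sum_congr rfl fun a _ => by ring
  refine ⟨fun a => Lagrange.nodalWeight A s a * N.eval (s a) * (H c)⁻¹, ?_, ?_⟩
  · rw [hsum, mul_inv_cancel₀ hc']
  · intro p hp
    have : N.eval (t p) = 0 := Lagrange.eval_nodal_at_node hp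
    rw [hH] at this
    rw [hsum, (mul_eq_zero.mp this).resolve_left (hD p), zero_mul]

/-- the elements of `b` preceded by fewer than `r` elements of `U` outside `b` -/
def stepSet {α : Type*} [LinearOrder α] (U b : Finset α) (r : ℕ) : Finset α :=
  b.filter fun c => (U.filter fun c' => c' < c ∧ c' ∉ b).card < r

variable {n : ℕ} [NeZero n]

/-- the set of leading positions after `k` steps -/
def Cset (M : ℕ → Finset (Fin n)) : ℕ → Finset (Fin n)
  | 0 => {0}
  | k + 1 => stepSet Finset.univ (M k) (Cset M k).card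

/-- squarefree monomial in block `j` -/
noncomputable def blk (j : ℕ) (b : Finset (Fin n)) : (ℕ × Fin n) →₀ ℕ :=
  ∑ c ∈ b, Finsupp.single (j, c) 1

/-- squarefree monomial in the first `k` blocks -/
noncomputable def mu (M : ℕ → Finset (Fin n)) (k : ℕ) : (ℕ × Fin n) →₀ ℕ :=
  ∑ j ∈ Finset.range k, blk j (M j)

/-- first row of the product of the first `k` matrices `G * D j` -/
noncomputable def Fv (G : Fin n → Fin n → F) : ℕ → Fin n → MvPolynomial (ℕ × Fin n) F
  | 0 => fun c => if c = 0 then 1 else 0
  | k + 1 => fun c => (∑ b, Fv G k b * C (G b c)) * X (k, c)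

/-- energy of a variable -/
def en (n d : ℕ) (x : ℕ × Fin n) : ℕ := x.2 * n ^ (d - 1 - x.1)

/-- squarefree monomials have energy at least `t` -/
def Hi (n d t : ℕ) (u : (ℕ × Fin n) →₀ ℕ) : Prop :=
  (∀ i, u i ≤ 1) → t ≤ Finsupp.weight (en n d) u

omit [NeZero n] in
lemma blk_apply (j : ℕ) (b : Finset (Fin n)) (x : ℕ × Fin n) :
    blk j b x = if x.1 = j ∧ x.2 ∈ b then 1 else 0 := by
  obtain ⟨i, c⟩ := x
  unfold blk
  rw [Finsupp.finsetSum_apply]
  simp only [Finsupp.single_apply, Prod.mk.injEq]
  by_cases h : i = j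
  · subst h; simp
  · simp [h, Ne.symm h]

omit [NeZero n] in
lemma mu_apply (M : ℕ → Finset (Fin n)) (k : ℕ) (x : ℕ × Fin n) :
    mu M k x = if x.1 < k ∧ x.2 ∈ M x.1 then 1 else 0 := by
  unfold mu
  rw [Finsupp.finsetSum_apply]
  simp only [blk_apply]
  by_cases h : x.1 < k
  · rw [Finset.sum_eq_single x.1]
    · simp [h]
    · intro j _ hj; simp [Ne.symm hj]
    · intro h'; exact (h' (Finset.mem_range.mpr h)).elim
  · rw [if_neg (by tauto)]
    apply Finset.sum_eq_zero
    intro j hj
    rw [if_neg]
    rintro ⟨h1, _⟩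
    exact h (h1 ▸ Finset.mem_range.mp hj)

omit [NeZero n] in
lemma Hi_mul {d t : ℕ} {p : MvPolynomial (ℕ × Fin n) F} (hp : Supp (Hi n d t) p)
    (v : (ℕ × Fin n) →₀ ℕ) :
    Supp (Hi n d (t + Finsupp.weight (en n d) v)) (p * monomial v 1) := by
  refine hp.mul (Supp.monomial (P := fun w => w = v) 1 rfl) ?_
  rintro u _ hu rfl hsq
  rw [map_add]
  exact Nat.add_le_add_right (hu fun i => le_trans (by simp) (hsq i)) _

omit [NeZero n] in
lemma Hi_mono {d t t' : ℕ} {p : MvPolynomial (ℕ × Fin n) F} (hp : Supp (Hi n d t) p)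
    (h : t' ≤ t) : Supp (Hi n d t') p :=
  hp.mono fun _ hu hsq => h.trans (hu hsq)

lemma lead_claim {G : Fin n → Fin n → F} (hG : MDS G) (d : ℕ) (M : ℕ → Finset (Fin n)) :
    ∀ k ≤ d, ∀ c ∈ Cset M k, ∃ a : MvPolynomial (ℕ × Fin n) F, ∀ c',
      Supp (Hi n d (Finsupp.weight (en n d) (mu M k) + n ^ (d - k)))
        (a * Fv G k c' - if c' = c then monomial (mu M k) 1 else 0) := by
  classical
  intro k
  induction k with
  | zero =>
    intro _ c hc
    have hc0 : c = 0 := by simpa [Cset] using hc
    subst hc0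
    refine ⟨1, fun c' => ?_⟩
    have : (1 * Fv G 0 c' - if c' = 0 then monomial (mu M 0) 1 else 0) = 0 := by
      simp only [Fv, mu]
      split_ifs <;> simp
    rw [this]; exact Supp.zero
  | succ k ih =>
    intro hk c hc
    choose! a ha using ih (by omega)
    simp only [Cset, stepSet, Finset.mem_filter] at hc
    obtain ⟨hcM, hcard⟩ := hc
    obtain ⟨lam, hl1, hl2⟩ := hG (Cset M k) _ c (by simp) hcard
    set μ := mu M k with hμ
    set t := Finsupp.weight (en n d) μ + n ^ (d - k) with ht
    let ξ : Fin n → F := fun c' => ∑ b ∈ Cset M k, lam b * G b c'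
    let aold : MvPolynomial (ℕ × Fin n) F := ∑ b ∈ Cset M k, lam b • a b
    let u := blk k ((M k).erase c)
    have h1 : ∀ c', Supp (Hi n d t)
        (aold * (∑ b, Fv G k b * C (G b c')) - ξ c' • monomial μ 1) := by
      intro c'
      have e : aold * (∑ b, Fv G k b * C (G b c')) - ξ c' • monomial μ 1 =
          ∑ b ∈ Cset M k, ∑ b', (lam b * G b' c') •
            (a b * Fv G k b' - if b' = b then monomial μ 1 else 0) := by
        simp only [aold, ξ, Finset.sum_mul, Finset.sum_smul, ← Finset.sum_sub_distrib]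
        refine Finset.sum_congr rfl fun b _ => ?_
        simp only [smul_sub, Finset.sum_sub_distrib, smul_ite, smul_zero, Finset.sum_ite_eq',
          Finset.mem_univ, if_true, Finset.mul_sum]
        congr 1
        refine Finset.sum_congr rfl fun b' _ => ?_
        simp only [smul_eq_C_mul, map_mul]
        ring
      rw [e]
      exact Supp.sum _ _ fun b hb => Supp.sum _ _ fun b' _ => (ha b hb b').smul _
    have hmu : mu M (k + 1) = μ + (u + Finsupp.single (k, c) 1) := by
      simp only [mu, hμ, Finset.sum_range_succ, u, blk]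
      rw [Finset.sum_erase_add _ _ hcM]
    have hen : ∀ c' : Fin n, Finsupp.weight (en n d) (Finsupp.single (k, c') 1) =
        c' * n ^ (d - (k + 1)) := by
      intro c'
      rw [Finsupp.weight_single, one_smul, en]
      congr 2
      show d - 1 - k = d - (k + 1)
      omega
    have hpow : n ^ (d - k) = n * n ^ (d - (k + 1)) := by
      rw [← pow_succ']; congr 1; omega
    refine ⟨aold * monomial u 1, fun c' => ?_⟩
    have e : (aold * monomial u 1 * Fv G (k + 1) c' -
          if c' = c then monomial (mu M (k + 1)) 1 else 0) =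
        (aold * (∑ b, Fv G k b * C (G b c')) - ξ c' • monomial μ 1) *
            monomial (u + Finsupp.single (k, c') 1) 1 +
          (ξ c' • monomial (μ + (u + Finsupp.single (k, c') 1)) 1 -
            if c' = c then monomial (mu M (k + 1)) 1 else 0) := by
      have e1 : (monomial (u + Finsupp.single (k, c') 1) 1 : MvPolynomial (ℕ × Fin n) F) =
          monomial u 1 * X (k, c') := by
        rw [X, monomial_mul, one_mul]
      have e2 : (monomial (μ + (u + Finsupp.single (k, c') 1)) 1 : MvPolynomial (ℕ × Fin n) F) =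
          monomial μ 1 * monomial (u + Finsupp.single (k, c') 1) 1 := by
        rw [monomial_mul, one_mul]
      rw [e2, e1]
      simp only [Fv, smul_eq_C_mul]
      ring
    rw [e]
    refine Supp.add (Hi_mono (Hi_mul (h1 c') _) ?_) ?_
    · rw [hmu, ht, hpow]
      simp only [map_add, hen]
      have := c.2
      have h3 : (c + 1) * n ^ (d - (k + 1)) ≤ n * n ^ (d - (k + 1)) :=
        Nat.mul_le_mul_right _ this
      nlinarith [Nat.zero_le (c' * n ^ (d - (k + 1)))]
    · by_cases hcc : c' = c
      · subst hcc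
        have : ξ c' = 1 := hl1
        rw [this, hmu, if_pos rfl, one_smul, sub_self]
        exact Supp.zero
      · rw [if_neg hcc, sub_zero]
        rcases lt_or_gt_of_ne hcc with hlt | hlt
        · by_cases hM : c' ∈ M k
          · refine Supp.smul _ (Supp.monomial _ ?_)
            intro hsq
            have := hsq (k, c')
            simp [u, blk_apply, hM, hcc] at this
          · have : ξ c' = 0 := hl2 c' (by simp [hlt, hM])
            rw [this, zero_smul]
            exact Supp.zero
        · refine Supp.smul _ (Supp.monomial _ ?_)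
          intro _
          rw [hmu]
          simp only [map_add, hen]
          have h3 : (c + 1) * n ^ (d - (k + 1)) ≤ c' * n ^ (d - (k + 1)) :=
            Nat.mul_le_mul_right _ hlt
          nlinarith

lemma lead_final {G : Fin n → Fin n → F} (hG : MDS G) (d : ℕ) (M : ℕ → Finset (Fin n))
    (hM : (Cset M d).Nonempty) : ∃ a : MvPolynomial (ℕ × Fin n) F,
      coeff (mu M d) (a * ∑ c, Fv G d c) ≠ 0 ∧
      ∀ u : (ℕ × Fin n) →₀ ℕ, (∀ i, u i ≤ 1) → coeff u (a * ∑ c, Fv G d c) ≠ 0 →
        u = mu M d ∨ Finsupp.weight (en n d) (mu M d) < Finsupp.weight (en n d) u := by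
  classical
  obtain ⟨c, hc⟩ := hM
  obtain ⟨a, ha⟩ := lead_claim hG d M d le_rfl c hc
  have h := Supp.sum Finset.univ _ fun c' _ => ha c'
  simp only [Finset.sum_sub_distrib, Finset.sum_ite_eq', Finset.mem_univ, if_true,
    ← Finset.mul_sum, Nat.sub_self, pow_zero] at h
  refine ⟨a, ?_, ?_⟩
  · intro h0
    have := h (mu M d) (by simp [h0]) (fun i => by rw [mu_apply]; split_ifs <;> simp)
    omega
  · intro u hsq hu
    by_cases hum : u = mu M d
    · exact Or.inl hum
    · right
      have := h u (by simpa [coeff_monomial, Ne.symm hum] using hu) hsq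
      omega

lemma Fv_weight (G : Fin n → Fin n → F) (w : ℕ → ℤ) (k : ℕ) (c : Fin n) :
    Supp (fun u => Finsupp.weight (fun x : ℕ × Fin n => w x.1) u = ∑ j ∈ Finset.range k, w j)
      (Fv G k c) := by
  induction k generalizing c with
  | zero =>
    simp only [Fv]
    split_ifs
    · exact Supp.monomial (u := 0) 1 (by simp)
    · exact Supp.zero
  | succ k ih =>
    simp only [Fv]
    refine Supp.mul (P := fun u => Finsupp.weight (fun x : ℕ × Fin n => w x.1) u =
      ∑ j ∈ Finset.range k, w j) (Q := fun v => v = Finsupp.single (k, c) 1)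
      (Supp.sum _ _ fun b _ => ?_) (Supp.monomial 1 rfl) ?_
    · rw [mul_comm, ← smul_eq_C_mul]
      exact (ih b).smul _
    · rintro u _ hu rfl
      rw [map_add, hu, Finset.sum_range_succ, Finsupp.weight_single, one_smul]

end Vale.Agent.P346
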