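import Vale.Agent.P346.Defs
import Vale.Agent.P346.Lead

/-! From circuits to decompositions, and the substitution into `IMM`. -/

namespace Vale.Agent.P346

open MvPolynomial

lemma sup_eq_of_all_eq {α : Type*} {s : Finset α} {f : α → ℕ}
    (h : ∀ a ∈ s, ∀ b ∈ s, f a = f b) {a : α} (ha : a ∈ s) : s.sup f = f a :=
  le_antisymm (Finset.sup_le fun b hb => (h b hb a ha).le) (Finset.le_sup ha)

lemma homog_prod {α ι F : Type*} [Field F] (val : α → MvPolynomial ι F) (dg : α → ℕ)
    (l : Multiset α) (h : ∀ a, (val a).IsHomogeneous (dg a)) :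
    (l.map val).prod.IsHomogeneous (l.map dg).sum := by
  induction l using Multiset.induction_on with
  | empty => simpa using isHomogeneous_one _ _
  | cons a l ih => simpa using (h a).mul ih

section Circ

variable {K σ ι F : Type*} [Field K] [Field F] (c : Circuit K σ)
  (φ : MvPolynomial σ K →+* MvPolynomial ι F) (ψ : K → F) (hC : ∀ a, φ (C a) = C (ψ a))
  (hX : ∀ i, (φ (X i)).IsHomogeneous 1) (hc : c.Homogeneous)

include hC in
lemma map_smul' (a : K) (p : MvPolynomial σ K) : φ (a • p) = ψ a • φ p := by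
  rw [smul_eq_C_mul, map_mul, hC, smul_eq_C_mul]

include hC hX in
lemma homog_leaf (l : Fin c.nLeaf) : (φ (c.valLeaf l)).IsHomogeneous (c.degLeaf l) := by
  unfold Circuit.valLeaf Circuit.degLeaf
  rcases c.label l with i | a
  · exact hX i
  · simp only [Sum.elim_inr, hC]
    exact isHomogeneous_C _ _

omit [Field K] in
lemma degLeaf_le (l : Fin c.nLeaf) : c.degLeaf l ≤ 1 := by
  unfold Circuit.degLeaf
  rcases c.label l with i | a <;> simp

omit [Field K] in
lemma deg5_le (g : Fin c.n5) : c.deg5 g ≤ 1 := Finset.sup_le fun l _ => degLeaf_le c l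

lemma homog_smul {p : MvPolynomial ι F} {e : ℕ} (a : F) (hp : p.IsHomogeneous e) :
    (a • p).IsHomogeneous e := by
  rw [smul_eq_C_mul]; exact hp.C_mul a

include hC hX hc in
lemma homog5 (g : Fin c.n5) : (φ (c.val5 g)).IsHomogeneous (c.deg5 g) := by
  unfold Circuit.val5
  rw [map_sum]
  apply IsHomogeneous.sum
  intro l hl
  rw [map_smul' φ ψ hC, Circuit.deg5, sup_eq_of_all_eq (hc.1 g) hl]
  exact homog_smul _ (homog_leaf c φ ψ hC hX l)

include hC hX hc in
lemma homog4 (g : Fin c.n4) : (φ (c.val4 g)).IsHomogeneous (c.deg4 g) := by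
  unfold Circuit.val4 Circuit.deg4
  rw [map_multiset_prod, Multiset.map_map]
  exact homog_prod _ _ _ (homog5 c φ ψ hC hX hc)

include hC hX hc in
lemma homog3 (g : Fin c.n3) : (φ (c.val3 g)).IsHomogeneous (c.deg3 g) := by
  unfold Circuit.val3
  rw [map_sum]
  apply IsHomogeneous.sum
  intro l hl
  rw [map_smul' φ ψ hC, Circuit.deg3, sup_eq_of_all_eq (hc.2.1 g) hl]
  exact homog_smul _ (homog4 c φ ψ hC hX hc l)

include hC hX hc in
lemma homog2 (g : Fin c.n2) : (φ (c.val2 g)).IsHomogeneous (c.deg2 g) := by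
  unfold Circuit.val2 Circuit.deg2
  rw [map_multiset_prod, Multiset.map_map]
  exact homog_prod _ _ _ (homog3 c φ ψ hC hX hc)

variable {wt : ι → ℤ} {T : ℤ} (hwt : ∀ i, wt i = T - 1 ∨ wt i = -(T + 1)) {s n : ℕ}
  (hT : 4 * (s : ℤ) ≤ T) (hn1 : n / (s + 1) ≤ s) (hn2 : (n : ℤ) ≤ s * (T - 1))

include hC hX hc hwt hT hn1 hn2 in
lemma dec_val2 (h : Fin c.n2) (hh : c.deg2 h = n) :
    Dec wt n (c.size * 2 ^ (s + 1)) (φ (c.val2 h)) := by
  have hsize : 1 ≤ c.size := by unfold Circuit.size; omega
  by_cases hall : ∀ g ∈ c.in2 h, c.deg3 g ≤ s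
  · have := dec_small hwt hT (fun g => φ (c.val3 g)) c.deg3 (c.in2 h)
      (fun g hg => ⟨homog3 c φ ψ hC hX hc g, hall g hg⟩) 1 0 (isHomogeneous_one _ _)
      (Nat.zero_le _)
    rw [zero_add, one_mul] at this
    unfold Circuit.deg2 at hh
    rw [hh] at this
    unfold Circuit.val2
    rw [map_multiset_prod, Multiset.map_map]
    refine this.mono ?_ le_rfl
    calc 2 ^ (n / (s + 1) + 1) ≤ 2 ^ (s + 1) := Nat.pow_le_pow_right (by norm_num) (by omega)
      _ ≤ _ := Nat.le_mul_of_pos_left _ hsize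
  · push Not at hall
    obtain ⟨g, hg, hgs⟩ := hall
    obtain ⟨l, hl⟩ := Multiset.exists_cons_of_mem hg
    unfold Circuit.val2
    rw [hl, Multiset.map_cons, Multiset.prod_cons, map_mul, Circuit.val3, map_sum, Finset.sum_mul]
    have := Dec.sum (wt := wt) (γ := n) (N := 2 ^ (s + 1)) (c.in3 g)
      (fun h' => φ (c.coef3 g h' • c.val4 h') * φ (l.map c.val3).prod) (by
        intro h' hh'
        rw [map_smul' φ ψ hC, smul_mul_assoc, mul_comm]
        apply Dec.smul
        unfold Circuit.val4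
        rw [map_multiset_prod φ ((c.in4 h').map c.val5), Multiset.map_map]
        refine (dec_linear hwt (fun g => φ (c.val5 g)) c.deg5 (c.in4 h')
          (fun g _ => ⟨homog5 c φ ψ hC hX hc g, deg5_le c g⟩) _ s ?_).mono le_rfl hn2
        have := sup_eq_of_all_eq (hc.2.1 g) hh'
        unfold Circuit.deg3 at hgs
        unfold Circuit.deg4 at this hgs
        omega)
    refine this.mono (Nat.mul_le_mul_right _ ?_) le_rfl
    have := Finset.card_le_univ (c.in3 g)
    rw [Fintype.card_fin] at this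
    unfold Circuit.size
    omega

include hC hX hc hwt hT hn1 hn2 in
lemma dec_output (hf : Supp (fun u => u.degree = n) (φ c.output)) :
    Dec wt n (c.size * (c.size * 2 ^ (s + 1))) (φ c.output) := by
  by_cases h0 : φ c.output = 0
  · rw [h0]; exact Dec.zero _
  have hD : (φ c.output).IsHomogeneous (c.in1.sup c.deg2) := by
    unfold Circuit.output
    rw [map_sum]
    apply IsHomogeneous.sum
    intro l hl
    rw [map_smul' φ ψ hC, sup_eq_of_all_eq hc.2.2 hl]
    exact homog_smul _ (homog2 c φ ψ hC hX hc l)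
  obtain ⟨u, hu⟩ := exists_coeff_ne_zero h0
  have hDn : c.in1.sup c.deg2 = n := by
    rw [← hf u hu, Finsupp.degree_eq_weight_one]
    exact (hD hu).symm
  unfold Circuit.output
  rw [map_sum]
  have := Dec.sum (wt := wt) (γ := n) (N := c.size * 2 ^ (s + 1)) c.in1
    (fun h => φ (c.coef1 h • c.val2 h)) (by
      intro h hh
      rw [map_smul' φ ψ hC]
      apply Dec.smul
      apply dec_val2 c φ ψ hC hX hc hwt hT hn1 hn2
      rw [← hDn, sup_eq_of_all_eq hc.2.2 hh])
  refine this.mono (Nat.mul_le_mul_right _ ?_) le_rfl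
  have := Finset.card_le_univ c.in1
  rw [Fintype.card_fin] at this
  unfold Circuit.size
  omega

end Circ

section Subst

variable {K F : Type*} [Field K] [Field F] {n : ℕ} [NeZero n] (G : Fin n → Fin n → F)

/-- the matrix substituted for the `j`-th matrix of variables -/
noncomputable def Ymat (d j : ℕ) : Matrix (Fin n) (Fin n) (MvPolynomial (ℕ × Fin n) F) :=
  Matrix.of fun a b => if j + 1 = d then ∑ c, C (G a c) * X (j, c) else C (G a b) * X (j, b)

lemma prod_Ymat (d : ℕ) : ∀ k < d, ∀ c, ((List.range k).map (Ymat G d)).prod 0 c = Fv G k c := by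
  intro k
  induction k with
  | zero => intro _ c; simp [Fv, Matrix.one_apply, eq_comm]
  | succ k ih =>
    intro hk c
    rw [List.range_succ, List.map_append, List.prod_append, List.map_singleton,
      List.prod_singleton, Matrix.mul_apply]
    simp only [Fv, Finset.sum_mul]
    refine Finset.sum_congr rfl fun b _ => ?_
    rw [ih (by omega), Ymat, Matrix.of_apply, if_neg (by omega), mul_assoc]

lemma prod_Ymat_final (d : ℕ) (hd : 0 < d) :
    ((List.range d).map (Ymat G d)).prod 0 0 = ∑ c, Fv G d c := by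
  obtain ⟨k, rfl⟩ : ∃ k, d = k + 1 := ⟨d - 1, by omega⟩
  rw [List.range_succ, List.map_append, List.prod_append, List.map_singleton,
    List.prod_singleton, Matrix.mul_apply]
  simp only [Fv, Finset.sum_mul]
  rw [Finset.sum_comm]
  refine Finset.sum_congr rfl fun b _ => ?_
  rw [prod_Ymat G _ k (by omega), Ymat, Matrix.of_apply, if_pos rfl, Finset.mul_sum]
  exact Finset.sum_congr rfl fun c _ => by ring

/-- the substitution -/
noncomputable def subst (ψ : K →+* F) (d : ℕ) :
    MvPolynomial (Fin d × Fin n × Fin n) K →+* MvPolynomial (ℕ × Fin n) F :=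
  eval₂Hom (C.comp ψ) fun x => Ymat G d x.1 x.2.1 x.2.2

omit [NeZero n] in
lemma subst_C (ψ : K →+* F) (d : ℕ) (a : K) : subst G ψ d (C a) = C (ψ a) := by
  simp [subst]

omit [NeZero n] in
lemma subst_X (ψ : K →+* F) (d : ℕ) (x : Fin d × Fin n × Fin n) :
    (subst G ψ d (X x)).IsHomogeneous 1 := by
  simp only [subst, eval₂Hom_X', Ymat, Matrix.of_apply]
  split_ifs
  · exact IsHomogeneous.sum _ _ _ fun c _ => (isHomogeneous_X _ _).C_mul _
  · exact (isHomogeneous_X _ _).C_mul _

lemma subst_IMM (ψ : K →+* F) (d : ℕ) (hd : 0 < d) :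
    subst G ψ d (IMM K n d) = ∑ c, Fv G d c := by
  rw [← prod_Ymat_final G d hd]
  unfold IMM
  have h := map_list_prod (RingHom.mapMatrix (m := Fin n) (subst G ψ d))
    (List.ofFn fun j : Fin d => (Matrix.of fun a b : Fin n =>
      (X (j, a, b) : MvPolynomial (Fin d × Fin n × Fin n) K)))
  have h' := congrFun (congrFun h 0) 0
  rw [RingHom.mapMatrix_apply, Matrix.map_apply] at h'
  rw [h']
  refine congrArg (fun l : List (Matrix (Fin n) (Fin n) (MvPolynomial (ℕ × Fin n) F)) =>
    l.prod 0 0) ?_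
  apply List.ext_getElem
  · simp
  · intro i h1 h2
    simp only [List.getElem_map, List.getElem_ofFn, List.getElem_range]
    ext1 a b
    simp [subst]

end Subst

end Vale.Agent.P346
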