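import Mathlib

/-! Decomposition of polynomials into few products `g * h` with `g` of high weight and `h` of low
weight, and the dimension count that bounds the number of leading monomials. -/

namespace Vale.Agent.P346

open MvPolynomial

variable {ι F : Type*} [Field F]

/-- every monomial of `p` satisfies `P` -/
def Supp (P : (ι →₀ ℕ) → Prop) (p : MvPolynomial ι F) : Prop := ∀ u, coeff u p ≠ 0 → P u

namespace Supp

variable {P Q R : (ι →₀ ℕ) → Prop} {p q : MvPolynomial ι F}

lemma zero : Supp P (0 : MvPolynomial ι F) := fun u h => (h (by simp)).elim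

lemma mono (h : Supp P p) (hPQ : ∀ u, P u → Q u) : Supp Q p := fun u hu => hPQ u (h u hu)

lemma add (hp : Supp P p) (hq : Supp P q) : Supp P (p + q) := by
  intro u hu
  by_cases h : coeff u p = 0
  · apply hq u
    simpa [h] using hu
  · exact hp u h

lemma smul (a : F) (hp : Supp P p) : Supp P (a • p) := by
  intro u hu
  apply hp u
  intro h
  apply hu
  simp [h]

lemma neg (hp : Supp P p) : Supp P (-p) := by
  intro u hu
  apply hp u
  simpa using hu

lemma sub (hp : Supp P p) (hq : Supp P q) : Supp P (p - q) := by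
  rw [sub_eq_add_neg]; exact hp.add hq.neg

lemma sum {α : Type*} (s : Finset α) (f : α → MvPolynomial ι F) (h : ∀ a ∈ s, Supp P (f a)) :
    Supp P (∑ a ∈ s, f a) := by
  classical
  induction s using Finset.induction_on with
  | empty => simpa using zero
  | insert a s ha ih =>
    rw [Finset.sum_insert ha]
    exact (h a (Finset.mem_insert_self _ _)).add
      (ih fun b hb => h b (Finset.mem_insert_of_mem hb))

lemma monomial {u : ι →₀ ℕ} (a : F) (h : P u) : Supp P (monomial u a) := by
  classical
  intro v hv
  rw [coeff_monomial] at hv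
  split_ifs at hv with huv
  · exact huv ▸ h
  · exact (hv rfl).elim

lemma mul (hp : Supp P p) (hq : Supp Q q) (h : ∀ u v, P u → Q v → R (u + v)) :
    Supp R (p * q) := by
  classical
  intro w hw
  rw [coeff_mul] at hw
  obtain ⟨⟨u, v⟩, huv, hne⟩ := Finset.exists_ne_zero_of_sum_ne_zero hw
  rw [Finset.HasAntidiagonal.mem_antidiagonal] at huv
  simp only at huv hne
  rw [← huv]
  exact h u v (hp u (left_ne_zero_of_mul hne)) (hq v (right_ne_zero_of_mul hne))

lemma split (S : (ι →₀ ℕ) → Prop) (hp : Supp P p) :
    ∃ p₁ p₂, p = p₁ + p₂ ∧ Supp (fun u => P u ∧ S u) p₁ ∧ Supp (fun u => P u ∧ ¬ S u) p₂ := by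
  classical
  refine ⟨∑ u ∈ p.support.filter S, MvPolynomial.monomial u (coeff u p),
    ∑ u ∈ p.support.filter (fun u => ¬ S u), MvPolynomial.monomial u (coeff u p), ?_, ?_, ?_⟩
  · rw [Finset.sum_filter_add_sum_filter_not]
    exact p.as_sum
  · apply sum
    intro u hu
    rw [Finset.mem_filter, mem_support_iff] at hu
    exact monomial _ ⟨hp u hu.1, hu.2⟩
  · apply sum
    intro u hu
    rw [Finset.mem_filter, mem_support_iff] at hu
    exact monomial _ ⟨hp u hu.1, hu.2⟩

end Supp

/-- `p` is a sum of at most `M` products `g * h`, where all monomials of `g` have weight at least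
`a`, all monomials of `h` have weight at most `-b`, and `γ ≤ a + b`. -/
inductive Dec (wt : ι → ℤ) (γ : ℤ) : ℕ → MvPolynomial ι F → Prop
  | zero (M : ℕ) : Dec wt γ M 0
  | step {M : ℕ} {p : MvPolynomial ι F} (g h : MvPolynomial ι F) (a b : ℤ) :
      Dec wt γ M p → Supp (fun u => a ≤ Finsupp.weight wt u) g →
      Supp (fun u => Finsupp.weight wt u ≤ -b) h → γ ≤ a + b → Dec wt γ (M + 1) (p + g * h)

namespace Dec

variable {wt : ι → ℤ} {γ γ' : ℤ} {M N : ℕ} {p q : MvPolynomial ι F}

lemma mono (h : Dec wt γ M p) (hMN : M ≤ N) (hγ : γ' ≤ γ) : Dec wt γ' N p := by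
  induction h generalizing N with
  | zero M => exact Dec.zero N
  | step g h a b _ hg hh hab ih =>
    obtain ⟨N', rfl⟩ : ∃ N', N = N' + 1 := ⟨N - 1, by omega⟩
    exact Dec.step g h a b (ih (by omega)) hg hh (hγ.trans hab)

lemma add (hp : Dec wt γ M p) (hq : Dec wt γ N q) : Dec wt γ (M + N) (p + q) := by
  induction hq with
  | zero N => simpa using hp.mono (Nat.le_add_right _ _) le_rfl
  | step g h a b _ hg hh hab ih =>
    rw [← add_assoc, ← add_assoc]
    exact Dec.step g h a b ih hg hh hab

lemma smul (a : F) (hp : Dec wt γ M p) : Dec wt γ M (a • p) := by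
  induction hp with
  | zero N => simpa using Dec.zero N
  | step g h a' b _ hg hh hab ih =>
    rw [smul_add, ← smul_mul_assoc]
    exact Dec.step _ h a' b ih (hg.smul a) hh hab

lemma sum {α : Type*} (s : Finset α) (f : α → MvPolynomial ι F)
    (h : ∀ a ∈ s, Dec wt γ N (f a)) : Dec wt γ (s.card * N) (∑ a ∈ s, f a) := by
  classical
  induction s using Finset.induction_on with
  | empty => simpa using Dec.zero 0
  | insert a s ha ih =>
    rw [Finset.sum_insert ha, Finset.card_insert_of_notMem ha, add_mul, one_mul, add_comm _ N]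
    exact (h a (Finset.mem_insert_self _ _)).add
      (ih fun b hb => h b (Finset.mem_insert_of_mem hb))

lemma mul_block (hp : Dec wt γ M p) (hq : Supp (fun u => γ' ≤ |Finsupp.weight wt u|) q) :
    Dec wt (γ + γ') (2 * M) (p * q) := by
  obtain ⟨q₁, q₂, rfl, h₁, h₂⟩ := hq.split (fun u => 0 ≤ Finsupp.weight wt u)
  induction hp with
  | zero N => simpa using Dec.zero _
  | @step M p g h a b _ hg hh hab ih =>
    have e : (p + g * h) * (q₁ + q₂) = p * (q₁ + q₂) + (g * q₁) * h + g * (h * q₂) := by ring
    rw [e, show 2 * (M + 1) = 2 * M + 1 + 1 by ring]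
    refine Dec.step g (h * q₂) a (b + γ') (Dec.step (g * q₁) h (a + γ') b ih ?_ hh (by omega))
      hg ?_ (by omega)
    · refine hg.mul h₁ ?_
      rintro u v hu ⟨hv, hv'⟩
      rw [abs_of_nonneg hv'] at hv
      rw [map_add]
      omega
    · refine hh.mul h₂ ?_
      rintro u v hu ⟨hv, hv'⟩
      rw [abs_of_neg (not_le.mp hv')] at hv
      rw [map_add]
      omega

lemma one : Dec wt 0 1 (1 : MvPolynomial ι F) := by
  have h1 : ∀ P : (ι →₀ ℕ) → Prop, P 0 → Supp P (1 : MvPolynomial ι F) := fun P hP =>
    Supp.monomial (u := 0) 1 hP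
  have := Dec.step (wt := wt) (γ := 0) (1 : MvPolynomial ι F) 1 0 0 (Dec.zero 0)
    (h1 _ (by simp)) (h1 _ (by simp)) (by simp)
  simpa using this

lemma block (hq : Supp (fun u => γ' ≤ |Finsupp.weight wt u|) q) : Dec wt γ' 2 q := by
  simpa using (one (wt := wt) (F := F)).mul_block hq

lemma any (q : MvPolynomial ι F) : Dec wt 0 2 q := block fun _ _ => abs_nonneg _

end Dec

section Weights

variable {wt : ι → ℤ} {T : ℤ}

lemma weight_eq (hwt : ∀ i, wt i = T - 1 ∨ wt i = -(T + 1)) (u : ι →₀ ℕ) :
    ∃ i j : ℕ, u.degree = i + j ∧ Finsupp.weight wt u = (T - 1) * i - (T + 1) * j := by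
  induction u using Finsupp.induction_linear with
  | zero => exact ⟨0, 0, by simp, by simp⟩
  | add u v hu hv =>
    obtain ⟨i, j, h1, h2⟩ := hu
    obtain ⟨i', j', h1', h2'⟩ := hv
    refine ⟨i + i', j + j', ?_, ?_⟩
    · rw [map_add, h1, h1']; ring
    · rw [map_add, h2, h2']; push_cast; ring
  | single a k =>
    rcases hwt a with h | h
    · exact ⟨k, 0, by simp, by simp [Finsupp.weight_single, h, mul_comm]⟩
    · exact ⟨0, k, by simp, by simp [Finsupp.weight_single, h]; ring⟩

lemma supp_abs_of_homog (hwt : ∀ i, wt i = T - 1 ∨ wt i = -(T + 1)) {q : MvPolynomial ι F} {e : ℕ}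
    (hq : q.IsHomogeneous e) (he : 2 * (e : ℤ) ≤ T) :
    Supp (fun u => (e : ℤ) ≤ |Finsupp.weight wt u|) q := by
  intro u hu
  have h1 : u.degree = e := by
    rw [Finsupp.degree_eq_weight_one]; exact hq hu
  obtain ⟨i, j, h2, h3⟩ := weight_eq hwt u
  have h4 : (e : ℤ) = i + j := by rw [← h1, h2]; push_cast; ring
  show (e : ℤ) ≤ |Finsupp.weight wt u|
  rw [h3, le_abs]
  have hT : 0 ≤ T := by omega
  rcases le_or_gt i j with hij | hij
  · right
    have : (i : ℤ) ≤ j := by exact_mod_cast hij
    nlinarith
  · left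
    have : (j : ℤ) + 1 ≤ i := by exact_mod_cast hij
    nlinarith

lemma supp_abs_of_linear (hwt : ∀ i, wt i = T - 1 ∨ wt i = -(T + 1)) {q : MvPolynomial ι F}
    (hq : q.IsHomogeneous 1) :
    Supp (fun u => T - 1 ≤ |Finsupp.weight wt u|) q := by
  intro u hu
  have h1 : u.degree = 1 := by
    rw [Finsupp.degree_eq_weight_one]; exact hq hu
  obtain ⟨i, j, h2, h3⟩ := weight_eq hwt u
  show T - 1 ≤ |Finsupp.weight wt u|
  rw [h3, le_abs]
  have h5 : i + j = 1 := by omega
  rcases Nat.eq_zero_or_pos i with hi | hi
  · have hj : j = 1 := by omega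
    right; subst hi; subst hj; simp; omega
  · have hi' : i = 1 := by omega
    have hj : j = 0 := by omega
    left; subst hi'; subst hj; simp

/-- products of factors of small degree -/
lemma dec_small {α : Type*} (hwt : ∀ i, wt i = T - 1 ∨ wt i = -(T + 1)) {σ : ℕ}
    (hT : 4 * (σ : ℤ) ≤ T) (val : α → MvPolynomial ι F) (dg : α → ℕ) (l : Multiset α)
    (hl : ∀ a ∈ l, (val a).IsHomogeneous (dg a) ∧ dg a ≤ σ) :
    ∀ (R : MvPolynomial ι F) (e : ℕ), R.IsHomogeneous e → e ≤ σ →
      Dec wt ((e + (l.map dg).sum : ℕ) : ℤ) (2 ^ ((e + (l.map dg).sum) / (σ + 1) + 1))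
        (R * (l.map val).prod) := by
  induction l using Multiset.induction_on with
  | empty =>
    intro R e hR he
    have := Dec.block (wt := wt) (supp_abs_of_homog hwt hR (by omega))
    simp only [Multiset.map_zero, Multiset.sum_zero, add_zero, Multiset.prod_zero, mul_one]
    refine this.mono ?_ le_rfl
    rw [pow_succ]
    have := Nat.one_le_two_pow (n := e / (σ + 1))
    omega
  | cons a l ih =>
    intro R e hR he
    have ha := hl a (Multiset.mem_cons_self _ _)
    have ih' := ih fun b hb => hl b (Multiset.mem_cons_of_mem hb)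
    simp only [Multiset.map_cons, Multiset.sum_cons, Multiset.prod_cons]
    rw [← mul_assoc, ← add_assoc]
    have hRa := hR.mul ha.1
    rcases le_or_gt (e + dg a) σ with h | h
    · exact ih' _ _ hRa h
    · have h1 := ih' 1 0 (isHomogeneous_one _ _) (Nat.zero_le _)
      have h2 := h1.mul_block (supp_abs_of_homog hwt hRa (by have := ha.2; push_cast; omega))
      rw [one_mul, mul_comm ((l.map val).prod)] at h2
      refine h2.mono ?_ (by push_cast; omega)
      rw [← pow_succ']
      apply Nat.pow_le_pow_right (by norm_num)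
      have : (0 + (l.map dg).sum) / (σ + 1) + 1 ≤ (e + dg a + (l.map dg).sum) / (σ + 1) := by
        rw [← Nat.add_div_right _ (Nat.succ_pos σ)]
        apply Nat.div_le_div_right
        omega
      omega

/-- products containing many linear forms -/
lemma dec_linear {α : Type*} (hwt : ∀ i, wt i = T - 1 ∨ wt i = -(T + 1))
    (val : α → MvPolynomial ι F) (dg : α → ℕ) (l : Multiset α)
    (hl : ∀ a ∈ l, (val a).IsHomogeneous (dg a) ∧ dg a ≤ 1) :
    ∀ (R : MvPolynomial ι F) (k : ℕ), k ≤ (l.map dg).sum →
      Dec wt (k * (T - 1)) (2 ^ (k + 1)) (R * (l.map val).prod) := by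
  induction l using Multiset.induction_on with
  | empty =>
    intro R k hk
    have : k = 0 := by simpa using hk
    subst this
    simpa using Dec.any R
  | cons a l ih =>
    intro R k hk
    have ha := hl a (Multiset.mem_cons_self _ _)
    have ih' := ih fun b hb => hl b (Multiset.mem_cons_of_mem hb)
    simp only [Multiset.map_cons, Multiset.sum_cons, Multiset.prod_cons] at hk ⊢
    rcases Nat.eq_zero_or_pos k with rfl | hk0
    · simpa using Dec.any _
    rcases Nat.eq_zero_or_pos (dg a) with h0 | h0
    · rw [← mul_assoc]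
      exact ih' _ k (by omega)
    · obtain ⟨k', rfl⟩ : ∃ k', k = k' + 1 := ⟨k - 1, by omega⟩
      have h1 : dg a = 1 := by have := ha.2; omega
      have h2 := (ih' R k' (by omega)).mul_block (supp_abs_of_linear hwt (h1 ▸ ha.1))
      rw [mul_assoc, mul_comm ((l.map val).prod), ← pow_succ'] at h2
      refine h2.mono le_rfl (le_of_eq ?_)
      push_cast; ring

end Weights

section Count

variable {Ω : Type*} [Fintype Ω] (wt : ι → ℤ) (ind : Ω → (ι →₀ ℕ))

open Classical in
/-- coefficients at the admissible monomials of weight `E` -/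
noncomputable def proj (E : ℤ) : MvPolynomial ι F →ₗ[F] (Ω → F) :=
  LinearMap.pi fun m => if Finsupp.weight wt (ind m) = E then lcoeff F (ind m) else 0

omit [Fintype Ω] in
lemma proj_apply (E : ℤ) (p : MvPolynomial ι F) (m : Ω) :
    proj wt ind E p m = if Finsupp.weight wt (ind m) = E then coeff (ind m) p else 0 := by
  classical
  unfold proj
  simp only [LinearMap.pi_apply]
  split_ifs <;> simp

/-- the span of the projections of shifted copies of `p` -/
noncomputable def shiftSpan (E Φ : ℤ) (p : MvPolynomial ι F) : Submodule F (Ω → F) :=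
  Submodule.span F {v | ∃ u, Finsupp.weight wt u + Φ = E ∧ v = proj wt ind E (monomial u 1 * p)}

open Classical in
lemma finrank_shiftSpan_le (hdown : ∀ m u, u ≤ ind m → ∃ m', ind m' = u) (E Φ γ : ℤ) {M : ℕ}
    {p : MvPolynomial ι F} (hp : Dec wt γ M p) :
    Module.finrank F (shiftSpan wt ind E Φ p) ≤
      M * (Finset.univ.filter fun m' => γ - Φ ≤ 2 * (Finsupp.weight wt (ind m') - E)).card := by
  set S := Finset.univ.filter fun m' => γ - Φ ≤ 2 * (Finsupp.weight wt (ind m') - E) with hS
  induction hp with
  | zero M =>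
    have : shiftSpan wt ind E Φ (0 : MvPolynomial ι F) = ⊥ := by
      unfold shiftSpan
      rw [Submodule.span_eq_bot]
      rintro v ⟨u, _, rfl⟩
      simp
    rw [this]; simp
  | @step M p g h a b _ hg hh hab ih =>
    let V : Submodule F (Ω → F) :=
      Submodule.span F (S.image fun m' => proj wt ind E (monomial (ind m') 1 * h) : Finset _)
    have hV : Module.finrank F V ≤ S.card :=
      (finrank_span_finset_le_card _).trans Finset.card_image_le
    have key : ∀ u, Finsupp.weight wt u + Φ = E → proj wt ind E (monomial u 1 * (g * h)) ∈ V := by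
      intro u hu
      rw [g.as_sum, Finset.sum_mul, Finset.mul_sum, map_sum]
      apply Submodule.sum_mem
      intro v hv
      have hv' := hg v (mem_support_iff.mp hv)
      have e : monomial u (1 : F) * (monomial v (coeff v g) * h) =
          coeff v g • (monomial (u + v) 1 * h) := by
        rw [← mul_assoc, monomial_mul, ← smul_mul_assoc, smul_monomial]; simp
      rw [e, map_smul]
      apply Submodule.smul_mem
      by_cases h0 : proj wt ind E (monomial (u + v) 1 * h) = 0
      · rw [h0]; exact Submodule.zero_mem _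
      · obtain ⟨m, hm⟩ := Function.ne_iff.mp h0
        rw [proj_apply, coeff_monomial_mul'] at hm
        simp only [Pi.zero_apply] at hm
        split_ifs at hm with h1 h2
        · obtain ⟨m', hm'⟩ := hdown m _ h2
          have h3 := hh _ (right_ne_zero_of_mul hm)
          have h4 : ind m = (ind m - (u + v)) + (u + v) := (tsub_add_cancel_of_le h2).symm
          have h5 := congrArg (Finsupp.weight wt) h4
          rw [map_add, map_add] at h5
          apply Submodule.subset_span
          rw [Finset.coe_image]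
          refine ⟨m', ?_, by simp only [hm']⟩
          simp only [hS, Finset.coe_filter, Finset.mem_univ, true_and, Set.mem_ofPred_eq, hm',
            map_add]
          simp only at hv' h3
          omega
        · exact (hm rfl).elim
        · exact (hm rfl).elim
    have hle : shiftSpan wt ind E Φ (p + g * h) ≤ shiftSpan wt ind E Φ p ⊔ V := by
      unfold shiftSpan
      rw [Submodule.span_le]
      rintro v ⟨u, hu, rfl⟩
      rw [mul_add, map_add]
      exact Submodule.add_mem_sup (Submodule.subset_span ⟨u, hu, rfl⟩) (key u hu)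
    calc Module.finrank F (shiftSpan wt ind E Φ (p + g * h))
        ≤ Module.finrank F (shiftSpan wt ind E Φ p ⊔ V : Submodule F (Ω → F)) :=
          Submodule.finrank_mono hle
      _ ≤ Module.finrank F (shiftSpan wt ind E Φ p) + Module.finrank F V :=
          Submodule.finrank_add_le_finrank_add_finrank _ _
      _ ≤ M * S.card + S.card := add_le_add ih hV
      _ = (M + 1) * S.card := by ring

omit [Fintype Ω] in
lemma proj_mem_shiftSpan {Φ : ℤ} {f : MvPolynomial ι F}
    (hf : Supp (fun u => Finsupp.weight wt u = Φ) f) (E : ℤ) (a : MvPolynomial ι F) :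
    proj wt ind E (a * f) ∈ shiftSpan wt ind E Φ f := by
  classical
  rw [a.as_sum, Finset.sum_mul, map_sum]
  apply Submodule.sum_mem
  intro u _
  have e : monomial u (coeff u a) * f = coeff u a • (monomial u 1 * f) := by
    rw [← smul_mul_assoc, smul_monomial]; simp
  rw [e, map_smul]
  apply Submodule.smul_mem
  by_cases hu : Finsupp.weight wt u + Φ = E
  · exact Submodule.subset_span ⟨u, hu, rfl⟩
  · have : proj wt ind E (monomial u 1 * f) = 0 := by
      funext m
      rw [proj_apply]
      split_ifs with h1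
      · by_contra h2
        have h3 : Supp (fun w => Finsupp.weight wt w = Finsupp.weight wt u + Φ)
            (monomial u (1 : F) * f) :=
          (Supp.monomial (P := fun w => w = u) 1 rfl).mul hf (by
            rintro _ v rfl hv
            rw [map_add, hv])
        exact hu ((h3 _ h2).symm.trans h1)
      · rfl
    rw [this]; exact Submodule.zero_mem _

open Classical in
/-- The dimension count: leading monomials of weight `E` are few if `f` decomposes. -/
lemma card_lead_le (hdown : ∀ m u, u ≤ ind m → ∃ m', ind m' = u) {Φ γ : ℤ} {M : ℕ}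
    {f : MvPolynomial ι F} (hf : Supp (fun u => Finsupp.weight wt u = Φ) f) (hp : Dec wt γ M f)
    (𝓜 : Finset Ω) (en : Ω → ℕ)
    (hlead : ∀ m ∈ 𝓜, ∃ a : MvPolynomial ι F, coeff (ind m) (a * f) ≠ 0 ∧
      ∀ m', coeff (ind m') (a * f) ≠ 0 → m' = m ∨ en m < en m') (E : ℤ) :
    (𝓜.filter fun m => Finsupp.weight wt (ind m) = E).card ≤
      M * (Finset.univ.filter fun m' => γ - Φ ≤ 2 * (Finsupp.weight wt (ind m') - E)).card := by
  refine le_trans ?_ (finrank_shiftSpan_le wt ind hdown E Φ γ hp)
  choose! a ha1 ha2 using hlead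
  set A := 𝓜.filter fun m => Finsupp.weight wt (ind m) = E with hA
  let v : A → shiftSpan wt ind E Φ f := fun m => ⟨_, proj_mem_shiftSpan wt ind hf E (a m)⟩
  have hv : LinearIndependent F v := by
    rw [Fintype.linearIndependent_iff]
    intro g hg
    by_contra hne
    push Not at hne
    obtain ⟨m₀, hm₀, hmin⟩ := Finset.exists_min_image (Finset.univ.filter fun m : A => g m ≠ 0)
      (fun m => en m) (by obtain ⟨m, hm⟩ := hne; exact ⟨m, by simpa using hm⟩)
    have hg' := congrFun (congrArg Subtype.val hg) m₀
    have hm₀A := Finset.mem_filter.mp m₀.2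
    simp only [v, AddSubmonoidClass.coe_finsetSum, SetLike.val_smul, Finset.sum_apply,
      Pi.smul_apply, proj_apply, hm₀A.2, if_true, ZeroMemClass.coe_zero, Pi.zero_apply,
      smul_eq_mul] at hg'
    rw [Finset.sum_eq_single m₀] at hg'
    · exact mul_ne_zero (by simpa using hm₀) (ha1 _ hm₀A.1) hg'
    · intro m _ hmm
      by_contra h
      have h1 := hmin m (by simpa using left_ne_zero_of_mul h)
      rcases ha2 m (Finset.mem_filter.mp m.2).1 m₀ (right_ne_zero_of_mul h) with h2 | h2
      · exact hmm (Subtype.ext h2.symm)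
      · omega
    · simp
  simpa using hv.fintype_card_le_finrank

end Count

end Vale.Agent.P346
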