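import Mathlib

/-! Definitions for P346: iterated matrix multiplication and layered depth-five circuits. -/

namespace Vale.Agent.P346

open MvPolynomial

/-- `IMM K w d` is the top-left entry of the product of `d` matrices of size `w × w` whose
entries are distinct commuting variables; variable `(j, a, b)` is entry `(a, b)` of matrix `j`. -/
noncomputable def IMM (K : Type*) [Field K] (w d : ℕ) [NeZero w] :
    MvPolynomial (Fin d × Fin w × Fin w) K :=
  (List.ofFn fun j : Fin d =>
    (Matrix.of fun a b : Fin w => (X (j, a, b) : MvPolynomial (Fin d × Fin w × Fin w) K))).prod 0 0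

/-- A layered circuit with layers of types sum, product, sum, product, sum from the single output
gate (layer 1) down to the bottom sums (layer 5), which read leaves.  Gates are shared freely.
A sum gate has a finite set of inputs with coefficients, a product gate a multiset of inputs. -/
structure Circuit (K σ : Type*) where
  /-- number of leaves -/
  nLeaf : ℕ
  /-- number of bottom sum gates (layer 5) -/
  n5 : ℕ
  /-- number of lower product gates (layer 4) -/
  n4 : ℕ
  /-- number of middle sum gates (layer 3) -/
  n3 : ℕ
  /-- number of upper product gates (layer 2) -/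
  n2 : ℕ
  /-- a leaf is a variable or a field element -/
  label : Fin nLeaf → σ ⊕ K
  in5 : Fin n5 → Finset (Fin nLeaf)
  coef5 : Fin n5 → Fin nLeaf → K
  in4 : Fin n4 → Multiset (Fin n5)
  in3 : Fin n3 → Finset (Fin n4)
  coef3 : Fin n3 → Fin n4 → K
  in2 : Fin n2 → Multiset (Fin n3)
  in1 : Finset (Fin n2)
  coef1 : Fin n2 → K

namespace Circuit

variable {K σ : Type*} [Field K] (c : Circuit K σ)

/-- Size: the number of vertices (leaves, gates of layers 5 to 2, and the output gate). -/
def size : ℕ := c.nLeaf + c.n5 + c.n4 + c.n3 + c.n2 + 1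

/-- Formal degree of a leaf: 1 for a variable, 0 for a constant. -/
def degLeaf (l : Fin c.nLeaf) : ℕ := Sum.elim (fun _ => 1) (fun _ => 0) (c.label l)

/-- Formal degree of a bottom sum (the common degree of its inputs in a homogeneous circuit). -/
def deg5 (g : Fin c.n5) : ℕ := (c.in5 g).sup c.degLeaf

/-- Formal degree of a lower product: the sum of the input degrees, with multiplicity. -/
def deg4 (g : Fin c.n4) : ℕ := ((c.in4 g).map c.deg5).sum

/-- Formal degree of a middle sum (the common degree of its inputs in a homogeneous circuit). -/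
def deg3 (g : Fin c.n3) : ℕ := (c.in3 g).sup c.deg4

/-- Formal degree of an upper product: the sum of the input degrees, with multiplicity. -/
def deg2 (g : Fin c.n2) : ℕ := ((c.in2 g).map c.deg3).sum

/-- Syntactic homogeneity: all inputs of each sum gate have equal formal degree. -/
def Homogeneous : Prop :=
  (∀ g, ∀ a ∈ c.in5 g, ∀ b ∈ c.in5 g, c.degLeaf a = c.degLeaf b) ∧
  (∀ g, ∀ a ∈ c.in3 g, ∀ b ∈ c.in3 g, c.deg4 a = c.deg4 b) ∧
  (∀ a ∈ c.in1, ∀ b ∈ c.in1, c.deg2 a = c.deg2 b)

/-- Every gate has at least one input. -/
def NoEmptyGate : Prop :=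
  (∀ g, (c.in5 g).Nonempty) ∧ (∀ g, c.in4 g ≠ 0) ∧ (∀ g, (c.in3 g).Nonempty) ∧
  (∀ g, c.in2 g ≠ 0) ∧ c.in1.Nonempty

/-- Polynomial at a leaf. -/
noncomputable def valLeaf (l : Fin c.nLeaf) : MvPolynomial σ K := Sum.elim X C (c.label l)

/-- Polynomial at a bottom sum gate. -/
noncomputable def val5 (g : Fin c.n5) : MvPolynomial σ K :=
  ∑ l ∈ c.in5 g, c.coef5 g l • c.valLeaf l

/-- Polynomial at a lower product gate. -/
noncomputable def val4 (g : Fin c.n4) : MvPolynomial σ K := ((c.in4 g).map c.val5).prod

/-- Polynomial at a middle sum gate. -/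
noncomputable def val3 (g : Fin c.n3) : MvPolynomial σ K :=
  ∑ h ∈ c.in3 g, c.coef3 g h • c.val4 h

/-- Polynomial at an upper product gate. -/
noncomputable def val2 (g : Fin c.n2) : MvPolynomial σ K := ((c.in2 g).map c.val3).prod

/-- Polynomial computed by the circuit (at the output sum gate). -/
noncomputable def output : MvPolynomial σ K := ∑ h ∈ c.in1, c.coef1 h • c.val2 h

end Circuit

/-- `minSize K n` is the least size of a syntactically homogeneous depth-five circuit over `K`
computing `IMM K n n` as a formal polynomial. -/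
noncomputable def minSize (K : Type*) [Field K] (n : ℕ) [NeZero n] : ℕ :=
  sInf {s : ℕ | ∃ c : Circuit K (Fin n × Fin n × Fin n),
    c.Homogeneous ∧ c.output = IMM K n n ∧ c.size = s}

end Vale.Agent.P346
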