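import Vale.Agent.P346.Lead

/-! The survival probability of the capped branching process. -/

namespace Vale.Agent.P346

open Finset

section Block

variable {α : Type*} [LinearOrder α]

lemma stepSet_zero (U b : Finset α) : stepSet U b 0 = ∅ := by simp [stepSet]

lemma stepSet_mono (U b : Finset α) {r r' : ℕ} (h : r ≤ r') : stepSet U b r ⊆ stepSet U b r' := by
  intro c hc
  simp only [stepSet, mem_filter] at hc ⊢
  exact ⟨hc.1, hc.2.trans_le h⟩

lemma stepSet_insert_notMem {U b : Finset α} {a : α} (ha : ∀ x ∈ U, a < x) (hb : b ⊆ U) (r : ℕ) :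
    stepSet (insert a U) b (r + 1) = stepSet U b r := by
  have haU : a ∉ U := fun h => lt_irrefl _ (ha a h)
  unfold stepSet
  apply filter_congr
  intro c hc
  rw [filter_insert, if_pos ⟨ha c (hb hc), fun h => haU (hb h)⟩,
    card_insert_of_notMem (fun h => haU (mem_filter.mp h).1)]
  omega

lemma stepSet_insert_mem {U b : Finset α} {a : α} (ha : ∀ x ∈ U, a < x) (r : ℕ) :
    stepSet (insert a U) (insert a b) (r + 1) = insert a (stepSet U b (r + 1)) := by
  have haU : a ∉ U := fun h => lt_irrefl _ (ha a h)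
  unfold stepSet
  have h1 : ∀ c, (insert a U).filter (fun c' => c' < c ∧ c' ∉ insert a b) =
      U.filter (fun c' => c' < c ∧ c' ∉ b) := by
    intro c
    rw [filter_insert, if_neg (by simp)]
    apply filter_congr
    intro x hx
    have : x ≠ a := (ha x hx).ne'
    simp [this]
  simp only [h1]
  rw [filter_insert, if_pos]
  have : U.filter (fun c' => c' < a ∧ c' ∉ b) = ∅ := by
    apply filter_eq_empty_iff.mpr
    intro x hx h
    exact lt_asymm (ha x hx) h.1
  rw [this]; simp

omit [LinearOrder α] in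
lemma sum_pow_card (U : Finset α) (ρ : ℝ) : ∑ b ∈ U.powerset, ρ ^ b.card = (1 + ρ) ^ U.card := by
  rw [← prod_const, prod_one_add]
  simp

lemma block_bound {ρ s γ : ℝ} (hρ : 0 ≤ ρ) (hs0 : 0 ≤ s) (hs1 : s ≤ 1) (hγ0 : 0 ≤ γ)
    (hγ : γ * (1 + ρ * (1 - s)) = 1) (U : Finset α) : ∀ r : ℕ,
    ∑ b ∈ U.powerset, ρ ^ b.card * s ^ (stepSet U b r).card ≤
      (1 + ρ) ^ U.card * (γ ^ r + s ^ (U.card - r)) := by
  induction U using Finset.induction_on_min with
  | empty =>
    intro r
    simp only [powerset_empty, sum_singleton, card_empty, pow_zero, stepSet, filter_empty,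
      Nat.zero_sub, one_mul]
    have := pow_nonneg hγ0 r
    linarith
  | insert a U ha ih =>
    intro r
    have haU : a ∉ U := fun h => lt_irrefl _ (ha a h)
    rcases r with _ | r
    · simp only [stepSet_zero, card_empty, pow_zero, mul_one, sum_pow_card]
      have h1 : 0 ≤ (1 + ρ) ^ (insert a U).card := by positivity
      have h2 : 0 ≤ s ^ ((insert a U).card - 0) := by positivity
      nlinarith
    · rw [sum_powerset_insert haU, card_insert_of_notMem haU]
      have e1 : ∑ b ∈ U.powerset, ρ ^ b.card * s ^ (stepSet (insert a U) b (r + 1)).card =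
          ∑ b ∈ U.powerset, ρ ^ b.card * s ^ (stepSet U b r).card :=
        sum_congr rfl fun b hb => by rw [stepSet_insert_notMem ha (mem_powerset.mp hb)]
      have e2 : ∑ b ∈ U.powerset, ρ ^ (insert a b).card *
            s ^ (stepSet (insert a U) (insert a b) (r + 1)).card =
          ρ * s * ∑ b ∈ U.powerset, ρ ^ b.card * s ^ (stepSet U b (r + 1)).card := by
        rw [mul_sum]
        refine sum_congr rfl fun b hb => ?_
        have hab : a ∉ b := fun h => haU (mem_powerset.mp hb h)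
        have hab' : a ∉ stepSet U b (r + 1) := fun h => hab (mem_filter.mp h).1
        rw [stepSet_insert_mem ha, card_insert_of_notMem hab, card_insert_of_notMem hab']
        ring
      rw [e1, e2, Nat.add_sub_add_right]
      have i1 := ih r
      have i2 := mul_le_mul_of_nonneg_left (ih (r + 1)) (mul_nonneg hρ hs0)
      have h3 : s * s ^ (U.card - (r + 1)) ≤ s ^ (U.card - r) := by
        rw [← pow_succ']
        exact pow_le_pow_of_le_one hs0 hs1 (by omega)
      have h4 : γ ^ r + ρ * s * γ ^ (r + 1) = (1 + ρ) * γ ^ (r + 1) := by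
        rw [pow_succ]
        linear_combination (-(γ ^ r)) * hγ
      have h5 : 0 ≤ (1 + ρ) ^ U.card := by positivity
      have h6 : (γ ^ r + s ^ (U.card - r)) + ρ * s * (γ ^ (r + 1) + s ^ (U.card - (r + 1))) ≤
          (1 + ρ) * (γ ^ (r + 1) + s ^ (U.card - r)) := by
        have := mul_le_mul_of_nonneg_left h3 hρ
        nlinarith
      calc _ ≤ (1 + ρ) ^ U.card * (γ ^ r + s ^ (U.card - r)) +
            ρ * s * ((1 + ρ) ^ U.card * (γ ^ (r + 1) + s ^ (U.card - (r + 1)))) :=
            add_le_add i1 i2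
        _ = (1 + ρ) ^ U.card * ((γ ^ r + s ^ (U.card - r)) +
            ρ * s * (γ ^ (r + 1) + s ^ (U.card - (r + 1)))) := by ring
        _ ≤ (1 + ρ) ^ U.card * ((1 + ρ) * (γ ^ (r + 1) + s ^ (U.card - r))) :=
            mul_le_mul_of_nonneg_left h6 h5
        _ = _ := by ring

lemma one_sub_pow_ge {θ γ : ℝ} (hθ0 : 0 ≤ θ) (hθ1 : θ ≤ 1) (hγ : γ * (1 + θ) = 1) (r : ℕ) :
    γ * (1 - (1 - θ) ^ r) ≤ 1 - γ ^ r := by
  have hγ0 : 0 < γ := by
    by_contra h
    push Not at h
    nlinarith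
  have hle : 1 - θ ≤ γ := by
    by_contra h
    push Not at h
    nlinarith
  induction r with
  | zero => simp
  | succ r ih =>
    have h1 : (1 - θ) ^ r ≤ γ ^ r := pow_le_pow_left₀ (by linarith) hle r
    have h2 : γ * θ * (1 - θ) ^ r ≤ γ * θ * γ ^ r :=
      mul_le_mul_of_nonneg_left h1 (by positivity)
    have h3 : γ ^ r * (γ * (1 + θ)) = γ ^ r := by rw [hγ, mul_one]
    rw [pow_succ, pow_succ]
    nlinarith

lemma step_bound {ρ θ θ' δ lam : ℝ} (hρ : 0 ≤ ρ) (hθ'0 : 0 ≤ θ') (hθ'1 : θ' ≤ 1)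
    (hθ : θ = ρ * θ') (hθ0 : 0 < θ) (hθ1 : θ ≤ 1) (U : Finset α) (h : ℕ)
    (hδ : (1 + θ)⁻¹ ^ h + (1 - θ') ^ (U.card - h) ≤ δ) (hlam : lam ≤ (1 + θ)⁻¹ - δ / θ) (r : ℕ) :
    (1 + ρ) ^ U.card * (lam * (1 - (1 - θ) ^ r)) ≤
      ∑ b ∈ U.powerset, ρ ^ b.card * (1 - (1 - θ') ^ (stepSet U b r).card) := by
  have hs0 : 0 ≤ 1 - θ' := by linarith
  have hs1 : 1 - θ' ≤ 1 := by linarith
  rcases r with _ | r
  · simp [stepSet_zero]
  set γ := (1 + θ)⁻¹ with hγdef
  have hγ0 : 0 ≤ γ := by positivity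
  have hγ1 : γ * (1 + θ) = 1 := inv_mul_cancel₀ (by positivity)
  have hγ : γ * (1 + ρ * (1 - (1 - θ'))) = 1 := by rw [sub_sub_cancel, ← hθ]; exact hγ1
  have h5 : 0 ≤ (1 + ρ) ^ U.card := by positivity
  have key : ∑ b ∈ U.powerset, ρ ^ b.card * (1 - θ') ^ (stepSet U b (r + 1)).card ≤
      (1 + ρ) ^ U.card * (γ ^ (r + 1) + δ) := by
    rcases le_total (r + 1) h with hr | hr
    · refine (block_bound hρ hs0 hs1 hγ0 hγ U (r + 1)).trans (mul_le_mul_of_nonneg_left ?_ h5)
      have h1 : (1 - θ') ^ (U.card - (r + 1)) ≤ (1 - θ') ^ (U.card - h) :=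
        pow_le_pow_of_le_one hs0 hs1 (by omega)
      have h2 : 0 ≤ γ ^ h := by positivity
      linarith
    · refine le_trans (sum_le_sum fun b _ => ?_)
        ((block_bound hρ hs0 hs1 hγ0 hγ U h).trans (mul_le_mul_of_nonneg_left ?_ h5))
      · exact mul_le_mul_of_nonneg_left
          (pow_le_pow_of_le_one hs0 hs1 (card_le_card (stepSet_mono U b hr))) (by positivity)
      · have h2 : 0 ≤ γ ^ (r + 1) := by positivity
        linarith
  have e : ∑ b ∈ U.powerset, ρ ^ b.card * (1 - (1 - θ') ^ (stepSet U b (r + 1)).card) =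
      (1 + ρ) ^ U.card -
        ∑ b ∈ U.powerset, ρ ^ b.card * (1 - θ') ^ (stepSet U b (r + 1)).card := by
    rw [← sum_pow_card, ← sum_sub_distrib]
    exact sum_congr rfl fun b _ => by ring
  rw [e]
  have hy : θ ≤ 1 - (1 - θ) ^ (r + 1) := by
    have : (1 - θ) ^ (r + 1) ≤ (1 - θ) ^ 1 :=
      pow_le_pow_of_le_one (by linarith) (by linarith) (by omega)
    rw [pow_one] at this
    linarith
  have hδ0 : 0 ≤ δ := le_trans (by positivity) hδ
  have h7 := one_sub_pow_ge hθ0.le hθ1 hγ1 (r + 1)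
  have h8 : δ ≤ δ / θ * (1 - (1 - θ) ^ (r + 1)) := by
    calc δ = δ / θ * θ := by field_simp
      _ ≤ _ := mul_le_mul_of_nonneg_left hy (by positivity)
  have h9 : lam * (1 - (1 - θ) ^ (r + 1)) ≤ (γ - δ / θ) * (1 - (1 - θ) ^ (r + 1)) :=
    mul_le_mul_of_nonneg_right hlam (by linarith)
  have h10 : lam * (1 - (1 - θ) ^ (r + 1)) ≤ 1 - (γ ^ (r + 1) + δ) := by nlinarith
  have h11 := mul_le_mul_of_nonneg_left h10 h5
  nlinarith

end Block

lemma resample {D B : Type*} [Fintype D] [DecidableEq D] [Fintype B] (w : D → B → ℝ) (k : D)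
    (Φ : (D → B) → ℝ) :
    ∑ m : D → B, (∏ j, w j (m j)) * ∑ b, w k b * Φ (Function.update m k b) =
      (∑ b, w k b) * ∑ m : D → B, (∏ j, w j (m j)) * Φ m := by
  let e : (D → B) × B → (D → B) × B := fun x => (Function.update x.1 k x.2, x.1 k)
  have he : Function.Involutive e := by
    rintro ⟨m, b⟩
    simp [e]
  have h1 : ∑ m : D → B, (∏ j, w j (m j)) * ∑ b, w k b * Φ (Function.update m k b) =
      ∑ x : (D → B) × B, (∏ j, w j (x.1 j)) * w k x.2 * Φ (Function.update x.1 k x.2) := by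
    rw [Fintype.sum_prod_type]
    refine sum_congr rfl fun m _ => ?_
    rw [mul_sum]
    exact sum_congr rfl fun b _ => by ring
  have h2 : (∑ b, w k b) * ∑ m : D → B, (∏ j, w j (m j)) * Φ m =
      ∑ x : (D → B) × B, (∏ j, w j (x.1 j)) * w k x.2 * Φ x.1 := by
    rw [Fintype.sum_prod_type, mul_sum]
    refine sum_congr rfl fun m _ => ?_
    rw [sum_mul]
    exact sum_congr rfl fun b _ => by ring
  rw [h1, h2, ← Equiv.sum_comp he.toPerm (fun x : (D → B) × B =>
    (∏ j, w j (x.1 j)) * w k x.2 * Φ x.1)]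
  refine sum_congr rfl fun x _ => ?_
  obtain ⟨m, b⟩ := x
  simp only [Function.Involutive.coe_toPerm, e]
  congr 1
  rw [← mul_prod_erase univ _ (mem_univ k), ← mul_prod_erase univ _ (mem_univ k)]
  have : ∏ j ∈ univ.erase k, w j (Function.update m k b j) = ∏ j ∈ univ.erase k, w j (m j) :=
    prod_congr rfl fun j hj => by rw [Function.update_of_ne (ne_of_mem_erase hj)]
  rw [this, Function.update_self]
  ring

variable {n : ℕ} [NeZero n]

/-- extension of a finite sequence of blocks by empty blocks -/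
def ext {d : ℕ} (m : Fin d → Finset (Fin n)) : ℕ → Finset (Fin n) :=
  fun k => if h : k < d then m ⟨k, h⟩ else ∅

lemma Cset_congr {M M' : ℕ → Finset (Fin n)} (k : ℕ) (h : ∀ j < k, M j = M' j) :
    Cset M k = Cset M' k := by
  induction k with
  | zero => rfl
  | succ k ih =>
    simp only [Cset]
    rw [ih fun j hj => h j (by omega), h k (by omega)]

open Classical in
lemma survival (d : ℕ) (ρ θ : ℕ → ℝ) (δ lam : ℝ) (h : ℕ) (hρ : ∀ k, 0 < ρ k)
    (hθ0 : ∀ k, 0 < θ k) (hθ1 : ∀ k, θ k ≤ 1) (hθ : ∀ k, θ k = ρ k * θ (k + 1))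
    (hδ : ∀ k, (1 + θ k)⁻¹ ^ h + (1 - θ (k + 1)) ^ (n - h) ≤ δ)
    (hlam : ∀ k, lam ≤ (1 + θ k)⁻¹ - δ / θ k) (hlam0 : 0 ≤ lam) :
    lam ^ d * θ 0 * ∑ m : Fin d → Finset (Fin n), ∏ j : Fin d, ρ j ^ (m j).card ≤
      ∑ m ∈ univ.filter (fun m : Fin d → Finset (Fin n) => (Cset (ext m) d).Nonempty),
        ∏ j : Fin d, ρ j ^ (m j).card := by
  let u : ℕ → ℝ := fun k => ∑ m : Fin d → Finset (Fin n),
    (∏ j : Fin d, ρ j ^ (m j).card) * (1 - (1 - θ k) ^ (Cset (ext m) k).card)
  have hW : ∀ m : Fin d → Finset (Fin n), 0 ≤ ∏ j : Fin d, ρ j ^ (m j).card := fun m =>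
    prod_nonneg fun j _ => pow_nonneg (hρ j).le _
  have hstep : ∀ k < d, lam * u k ≤ u (k + 1) := by
    intro k hk
    have hz : 0 < (1 + ρ k) ^ n := by have := hρ k; positivity
    refine le_of_mul_le_mul_left ?_ hz
    have r1 := resample (fun (j : Fin d) (b : Finset (Fin n)) => ρ j ^ b.card) ⟨k, hk⟩
      (fun m => 1 - (1 - θ (k + 1)) ^ (Cset (ext m) (k + 1)).card)
    have r2 : ∑ b : Finset (Fin n), ρ k ^ b.card = (1 + ρ k) ^ n := by
      have := sum_pow_card (univ : Finset (Fin n)) (ρ k)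
      simpa using this
    simp only [r2] at r1
    simp only [u]
    rw [← r1, mul_sum, mul_sum]
    refine sum_le_sum fun m _ => ?_
    have r3 : ∀ b, Cset (ext (Function.update m ⟨k, hk⟩ b)) (k + 1) =
        stepSet univ b (Cset (ext m) k).card := by
      intro b
      simp only [Cset]
      rw [Cset_congr (M' := ext m) k]
      · simp [ext, hk]
      · intro j hj
        have : j < d := by omega
        simp only [ext, this, dif_pos]
        rw [Function.update_of_ne]
        intro h'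
        have := congrArg Fin.val h'
        simp only at this
        omega
    simp only [r3]
    have r4 := step_bound (hρ k).le (hθ0 (k + 1)).le (hθ1 (k + 1)) (hθ k) (hθ0 k) (hθ1 k)
      (univ : Finset (Fin n)) h (by simpa using hδ k) (hlam k) (Cset (ext m) k).card
    simp only [card_univ, Fintype.card_fin, powerset_univ] at r4
    have r5 := mul_le_mul_of_nonneg_left r4 (hW m)
    refine le_trans (le_of_eq ?_) r5
    ring
  have hall : ∀ k ≤ d, lam ^ k * u 0 ≤ u k := by
    intro k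
    induction k with
    | zero => intro _; simp
    | succ k ih =>
      intro hk
      calc lam ^ (k + 1) * u 0 = lam * (lam ^ k * u 0) := by ring
        _ ≤ lam * u k := mul_le_mul_of_nonneg_left (ih (by omega)) hlam0
        _ ≤ _ := hstep k (by omega)
  have h0 : u 0 = θ 0 * ∑ m : Fin d → Finset (Fin n), ∏ j : Fin d, ρ j ^ (m j).card := by
    simp only [u, Cset, card_singleton, pow_one, sub_sub_cancel]
    rw [mul_sum]
    exact sum_congr rfl fun m _ => by ring
  rw [mul_assoc, ← h0]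
  refine (hall d le_rfl).trans ?_
  simp only [u]
  rw [sum_filter]
  refine sum_le_sum fun m _ => ?_
  split_ifs with hm
  · have : 0 ≤ (1 - θ d) ^ (Cset (ext m) d).card := pow_nonneg (by linarith [hθ1 d]) _
    nlinarith [hW m]
  · rw [not_nonempty_iff_eq_empty] at hm
    simp [hm]

end Vale.Agent.P346
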