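import Vale.Agent.P346.Circ
import Vale.Agent.P346.Prob

/-! The lower bound. -/

namespace Vale.Agent.P346

open MvPolynomial Finset

open Classical in
lemma sum_lead_le {Ω : Type*} [Fintype Ω] (wt : Ω → ℤ) {η : ℝ} (hη : 0 ≤ η) (𝓜 : Finset Ω)
    (M B : ℕ) (g : ℤ) (hB : ∀ m, |wt m| ≤ B)
    (h : ∀ E, (𝓜.filter fun m => wt m = E).card ≤
      M * (univ.filter fun m' => g ≤ 2 * (wt m' - E)).card) :
    ∑ m ∈ 𝓜, Real.exp (η * wt m) ≤
      (2 * B + 1) * M * Real.exp (-(η * g / 2)) * ∑ m, Real.exp (η * wt m) := by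
  have hmap : ∀ m ∈ 𝓜, wt m ∈ Icc (-(B : ℤ)) B := fun m _ => mem_Icc.mpr (abs_le.mp (hB m))
  rw [← sum_fiberwise_of_maps_to hmap]
  have hE : ∀ E ∈ Icc (-(B : ℤ)) B, ∑ m ∈ 𝓜 with wt m = E, Real.exp (η * wt m) ≤
      M * Real.exp (-(η * g / 2)) * ∑ m, Real.exp (η * wt m) := by
    intro E _
    have e1 : ∑ m ∈ 𝓜 with wt m = E, Real.exp (η * wt m) =
        (𝓜.filter fun m => wt m = E).card * Real.exp (η * E) := by
      rw [sum_congr rfl (g := fun _ => Real.exp (η * E)), sum_const, nsmul_eq_mul]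
      intro m hm
      rw [(mem_filter.mp hm).2]
    have e2 : ((univ.filter fun m' => g ≤ 2 * (wt m' - E)).card : ℝ) * Real.exp (η * E) ≤
        Real.exp (-(η * g / 2)) * ∑ m, Real.exp (η * wt m) := by
      rw [← nsmul_eq_mul, ← sum_const, mul_sum]
      refine (sum_le_sum (g := fun m => Real.exp (-(η * g / 2)) * Real.exp (η * wt m))
        fun m hm => ?_).trans
        (sum_le_sum_of_subset_of_nonneg (subset_univ _) fun m _ _ => by positivity)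
      rw [← Real.exp_add, Real.exp_le_exp]
      have h1 : (g : ℝ) ≤ 2 * (wt m - E) := by exact_mod_cast (mem_filter.mp hm).2
      nlinarith
    rw [e1, mul_assoc]
    refine le_trans ?_ (mul_le_mul_of_nonneg_left e2 (Nat.cast_nonneg M))
    rw [← mul_assoc]
    refine mul_le_mul_of_nonneg_right ?_ (Real.exp_pos _).le
    exact_mod_cast h E
  refine (sum_le_sum hE).trans (le_of_eq ?_)
  rw [sum_const, nsmul_eq_mul, Int.card_Icc]
  have : ((B : ℤ) + 1 - -(B : ℤ)).toNat = 2 * B + 1 := by omega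
  rw [this]
  push_cast
  ring

/-- the walk of partial sums of block weights -/
def walk (T : ℤ) : ℕ → ℤ
  | 0 => 0
  | k + 1 => if T + 1 ≤ walk T k then walk T k - (T + 1) else walk T k + (T - 1)

lemma walk_bounds {T : ℤ} (hT : 1 ≤ T) (k : ℕ) : 0 ≤ walk T k ∧ walk T k ≤ 2 * T := by
  induction k with
  | zero => simp only [walk]; omega
  | succ k ih => simp only [walk]; split_ifs <;> omega

lemma walk_step (T : ℤ) (k : ℕ) :
    walk T (k + 1) - walk T k = T - 1 ∨ walk T (k + 1) - walk T k = -(T + 1) := by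
  simp only [walk]; split_ifs <;> omega

variable {n : ℕ} [NeZero n]

omit [NeZero n] in
lemma weight_mu {d : ℕ} (w : ℕ → ℤ) (m : Fin d → Finset (Fin n)) :
    Finsupp.weight (fun x : ℕ × Fin n => w x.1) (mu (ext m) d) =
      ∑ j : Fin d, w j * (m j).card := by
  unfold mu blk
  rw [map_sum, ← Fin.sum_univ_eq_sum_range (fun j => Finsupp.weight
    (fun x : ℕ × Fin n => w x.1) (∑ c ∈ ext m j, Finsupp.single (j, c) 1))]
  refine sum_congr rfl fun j _ => ?_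
  rw [map_sum]
  simp [Finsupp.weight_single, ext, mul_comm]

omit [NeZero n] in
lemma mu_ext_down {d : ℕ} (m : Fin d → Finset (Fin n)) (u : (ℕ × Fin n) →₀ ℕ)
    (hu : u ≤ mu (ext m) d) : ∃ m' : Fin d → Finset (Fin n), mu (ext m') d = u := by
  refine ⟨fun j => univ.filter fun c => u (j, c) ≠ 0, ?_⟩
  ext ⟨j, c⟩
  have h := hu (j, c)
  rw [mu_apply] at h ⊢
  simp only at h ⊢
  by_cases hj : j < d
  · simp only [ext, hj, dif_pos, mem_filter, mem_univ, true_and] at h ⊢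
    split_ifs at h ⊢ <;> omega
  · simp only [hj, false_and, if_false] at h ⊢
    omega

omit [NeZero n] in
lemma mu_ext_inj {d : ℕ} {m m' : Fin d → Finset (Fin n)} (h : mu (ext m) d = mu (ext m') d) :
    m = m' := by
  funext j
  ext c
  have := DFunLike.congr_fun h ((j : ℕ), c)
  simp only [mu_apply, ext, j.2, dif_pos, true_and, Fin.eta] at this
  split_ifs at this <;> simp_all

/-- The combinatorial inequality behind the lower bound. -/
lemma main_ineq {K : Type*} [Field K] (c : Circuit K (Fin n × Fin n × Fin n))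
    (hc : c.Homogeneous) (hout : c.output = IMM K n n) {s : ℕ} (hs : 1 ≤ s)
    (hn1 : n / (s + 1) ≤ s) (hn2 : (n : ℤ) ≤ s * (4 * s - 1)) {η κ δ lam : ℝ} (hη : 0 ≤ η)
    (hκ : 1 ≤ κ) (h : ℕ)
    (hδ : ∀ θ θ' : ℝ, Real.exp (-(η * (8 * s))) / κ ≤ θ → Real.exp (-(η * (8 * s))) / κ ≤ θ' →
      θ ≤ 1 / κ → θ' ≤ 1 / κ → (1 + θ)⁻¹ ^ h + (1 - θ') ^ (n - h) ≤ δ)
    (hlam : ∀ θ : ℝ, Real.exp (-(η * (8 * s))) / κ ≤ θ → θ ≤ 1 / κ → lam ≤ (1 + θ)⁻¹ - δ / θ)
    (hlam0 : 0 ≤ lam) :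
    lam ^ n * (1 / κ) ≤ (2 * (n * ((4 * s + 1) * n) : ℕ) + 1) *
      (c.size * (c.size * 2 ^ (s + 1)) : ℕ) * Real.exp (-(η * (n - 8 * s) / 2)) := by
  classical
  let F := AlgebraicClosure K
  obtain ⟨G, hG⟩ := exists_MDS (F := F) n
  let T : ℤ := 4 * s
  have hT : 1 ≤ T := by omega
  let w : ℕ → ℤ := fun k => walk T (k + 1) - walk T k
  let wt : ℕ × Fin n → ℤ := fun x => w x.1
  have hwt : ∀ i, wt i = T - 1 ∨ wt i = -(T + 1) := fun i => walk_step T i.1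
  have hn0 : 0 < n := Nat.pos_of_ne_zero (NeZero.ne n)
  have hf : subst G (algebraMap K F) n c.output = ∑ b, Fv G n b := by
    rw [hout, subst_IMM G _ n hn0]
  have hdec : Dec wt n (c.size * (c.size * 2 ^ (s + 1))) (∑ b, Fv G n b) := by
    rw [← hf]
    refine dec_output c _ (algebraMap K F) (subst_C G _ n) (subst_X G _ n) hc hwt le_rfl hn1
      hn2 ?_
    rw [hf]
    refine Supp.sum _ _ fun b _ => (Fv_weight G (fun _ => 1) n b).mono ?_
    intro u hu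
    simp only [sum_const, card_range, nsmul_eq_mul, mul_one] at hu
    have : Finsupp.weight (fun _ : ℕ × Fin n => (1 : ℤ)) u = (u.degree : ℤ) := by
      rw [Finsupp.weight_apply, Finsupp.degree_apply, Finsupp.sum]
      simp
    omega
  have hΦ : Supp (fun u => Finsupp.weight wt u = walk T n) (∑ b, Fv G n b) := by
    refine Supp.sum _ _ fun b _ => (Fv_weight G w n b).mono ?_
    intro u hu
    rw [hu, sum_range_sub (walk T)]
    simp [walk]
  let ind : (Fin n → Finset (Fin n)) → ((ℕ × Fin n) →₀ ℕ) := fun m => mu (ext m) n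
  let 𝓜 := univ.filter (fun m : Fin n → Finset (Fin n) => (Cset (ext m) n).Nonempty)
  have hcard := card_lead_le wt ind mu_ext_down hΦ hdec 𝓜
    (fun m => Finsupp.weight (en n n) (ind m)) (by
      intro m hm
      obtain ⟨a, ha1, ha2⟩ := lead_final hG n (ext m) (mem_filter.mp hm).2
      refine ⟨a, ha1, fun m' hm' => ?_⟩
      rcases ha2 (ind m') (fun i => by simp only [ind, mu_apply]; split_ifs <;> simp) hm' with h | h
      · exact Or.inl (mu_ext_inj h)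
      · exact Or.inr h)
  have hB : ∀ m, |Finsupp.weight wt (ind m)| ≤ (n * ((4 * s + 1) * n) : ℕ) := by
    intro m
    simp only [ind, wt, weight_mu]
    refine (abs_sum_le_sum_abs _ _).trans ?_
    refine (sum_le_card_nsmul _ _ (((4 * s + 1) * n : ℕ) : ℤ) fun j _ => ?_).trans (by simp)
    rw [abs_mul, Nat.abs_cast]
    push_cast
    refine mul_le_mul ?_ ?_ (by positivity) (by positivity)
    · rcases walk_step T j with h | h <;> simp only [w, h] <;> rw [abs_le] <;> omega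
    · exact_mod_cast (card_le_univ (m j)).trans (by simp)
  have hsum := sum_lead_le (fun m => Finsupp.weight wt (ind m)) hη 𝓜 _ _ _ hB hcard
  let ρ : ℕ → ℝ := fun k => Real.exp (η * w k)
  let θ : ℕ → ℝ := fun k => Real.exp (-(η * walk T k)) / κ
  have hκ0 : 0 < κ := by linarith
  have hθlo : ∀ k, Real.exp (-(η * (8 * s))) / κ ≤ θ k := by
    intro k
    refine div_le_div_of_nonneg_right (Real.exp_le_exp.mpr ?_) hκ0.le
    have : ((walk T k : ℤ) : ℝ) ≤ 8 * s := by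
      have := (walk_bounds hT k).2
      have h2 : walk T k ≤ 8 * (s : ℤ) := by omega
      exact_mod_cast h2
    nlinarith
  have hθhi : ∀ k, θ k ≤ 1 / κ := by
    intro k
    refine div_le_div_of_nonneg_right (Real.exp_le_one_iff.mpr ?_) hκ0.le
    have : (0 : ℝ) ≤ ((walk T k : ℤ) : ℝ) := by exact_mod_cast (walk_bounds hT k).1
    nlinarith
  have hsurv := survival (n := n) n ρ θ δ lam h (fun k => Real.exp_pos _)
    (fun k => div_pos (Real.exp_pos _) hκ0)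
    (fun k => (hθhi k).trans (by rw [div_le_one hκ0]; exact hκ))
    (fun k => by
      simp only [ρ, θ, w]
      rw [← mul_div_assoc, ← Real.exp_add]
      push_cast
      congr 2
      ring)
    (fun k => hδ _ _ (hθlo k) (hθlo (k + 1)) (hθhi k) (hθhi (k + 1)))
    (fun k => hlam _ (hθlo k) (hθhi k)) hlam0
  have hW : ∀ m : Fin n → Finset (Fin n), Real.exp (η * (Finsupp.weight wt (ind m) : ℤ)) =
      ∏ j : Fin n, ρ j ^ (m j).card := by
    intro m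
    simp only [ind, wt, weight_mu, ρ, ← Real.exp_nat_mul, ← Real.exp_sum]
    push_cast
    rw [mul_sum]
    congr 1
    exact sum_congr rfl fun j _ => by ring
  simp only [hW] at hsum
  have hZ : 0 < ∑ m : Fin n → Finset (Fin n), ∏ j : Fin n, ρ j ^ (m j).card :=
    sum_pos (fun m _ => prod_pos fun j _ => pow_pos (Real.exp_pos _) _) univ_nonempty
  have h1 := le_of_mul_le_mul_right (hsurv.trans hsum) hZ
  have h2 : θ 0 = 1 / κ := by simp [θ, walk]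
  rw [h2] at h1
  refine h1.trans (mul_le_mul_of_nonneg_left (Real.exp_le_exp.mpr ?_) (by positivity))
  have : ((walk T n : ℤ) : ℝ) ≤ 8 * s := by
    have := (walk_bounds hT n).2
    have h2 : walk T n ≤ 8 * (s : ℤ) := by omega
    exact_mod_cast h2
  push_cast
  nlinarith

lemma delta_bound {L Γ θ θ' : ℝ} (hL : 2048 ≤ L) (hΓ : Γ = Real.exp (L / 4)) {n : ℕ}
    (hn : (n : ℝ) = Γ ^ 4) (h1 : 1 / Γ ^ 3 ≤ θ) (h2 : 1 / Γ ^ 3 ≤ θ') (h3 : θ ≤ 1) (h4 : θ' ≤ 1) :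
    (1 + θ)⁻¹ ^ (n / 2) + (1 - θ') ^ (n - n / 2) ≤ 1 / Γ ^ 5 := by
  have hΓ1 : 1 + L / 4 ≤ Γ := by rw [hΓ, add_comm]; exact Real.add_one_le_exp _
  have hΓ0 : 0 < Γ := by linarith
  set x := 1 / Γ ^ 3 with hx
  have hx0 : 0 < x := by positivity
  have hθ0 : 0 < θ := by linarith
  have a1 : (1 + θ)⁻¹ ≤ Real.exp (-(x / 2)) := by
    have : (1 + θ)⁻¹ ≤ 1 - θ / 2 := by
      rw [inv_le_iff_one_le_mul₀ (by linarith)]
      nlinarith
    have h5 := Real.add_one_le_exp (-(x / 2))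
    linarith
  have a2 : 1 - θ' ≤ Real.exp (-(x / 2)) := by
    have h5 := Real.add_one_le_exp (-(x / 2))
    linarith
  have a3 : Real.exp (-(x / 2)) ≤ 1 := Real.exp_le_one_iff.mpr (by linarith)
  have b1 : (1 + θ)⁻¹ ^ (n / 2) ≤ Real.exp (-(x / 2)) ^ (n / 2) :=
    pow_le_pow_left₀ (by positivity) a1 _
  have b2 : (1 - θ') ^ (n - n / 2) ≤ Real.exp (-(x / 2)) ^ (n / 2) :=
    (pow_le_pow_left₀ (by linarith) a2 _).trans
      (pow_le_pow_of_le_one (Real.exp_pos _).le a3 (by omega))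
  have hh : Γ ^ 4 / 4 ≤ ((n / 2 : ℕ) : ℝ) := by
    have hn2 : (2 : ℝ) ≤ n := by
      rw [hn]
      calc (2 : ℝ) ≤ 2 ^ 4 := by norm_num
        _ ≤ Γ ^ 4 := pow_le_pow_left₀ (by norm_num) (by linarith) 4
    have hn2' : 2 ≤ n := by exact_mod_cast hn2
    have : n ≤ 4 * (n / 2) := by omega
    have h6 : (n : ℝ) ≤ 4 * ((n / 2 : ℕ) : ℝ) := by exact_mod_cast this
    linarith
  have c1 : Real.exp (-(x / 2)) ^ (n / 2) ≤ Real.exp (-(Γ / 8)) := by
    rw [← Real.exp_nat_mul, Real.exp_le_exp]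
    have : Γ ^ 4 / 4 * (x / 2) = Γ / 8 := by rw [hx]; field_simp; ring
    nlinarith
  have c2 : 2 * Real.exp (-(Γ / 8)) ≤ 1 / Γ ^ 5 := by
    have e1 : 1 / Γ ^ 5 = Real.exp (-(5 * L / 4)) := by
      rw [hΓ, ← Real.exp_nat_mul, Real.exp_neg, one_div]
      congr 2
      push_cast; ring
    have e2 : (1 + L / 8) ^ 2 ≤ Γ := by
      have : Γ = Real.exp (L / 8) ^ 2 := by
        rw [hΓ, ← Real.exp_nat_mul]; congr 1; push_cast; ring
      rw [this]
      exact pow_le_pow_left₀ (by linarith) (by rw [add_comm]; exact Real.add_one_le_exp _) 2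
    have e3 : (2 : ℝ) ≤ Real.exp 1 := by have := Real.add_one_le_exp 1; linarith
    rw [e1]
    calc 2 * Real.exp (-(Γ / 8)) ≤ Real.exp 1 * Real.exp (-(Γ / 8)) :=
          mul_le_mul_of_nonneg_right e3 (Real.exp_pos _).le
      _ = Real.exp (1 + -(Γ / 8)) := by rw [Real.exp_add]
      _ ≤ _ := Real.exp_le_exp.mpr (by nlinarith)
  linarith

lemma le_of_sq_le_sq₀ {a b : ℝ} (h : a ^ 2 ≤ b ^ 2) (hb : 0 ≤ b) : a ≤ b :=
  (abs_le_of_sq_le_sq' h hb).2

lemma lam_bound {Γ θ : ℝ} (hΓ0 : 0 < Γ) (h1 : 1 / Γ ^ 3 ≤ θ) (h3 : θ ≤ 1 / Γ ^ 2) :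
    1 - 2 / Γ ^ 2 ≤ (1 + θ)⁻¹ - 1 / Γ ^ 5 / θ := by
  have hθ0 : 0 < θ := lt_of_lt_of_le (by positivity) h1
  have a1 : 1 - θ ≤ (1 + θ)⁻¹ := by
    rw [← one_div, le_div_iff₀ (by linarith)]
    nlinarith
  have a2 : 1 / Γ ^ 5 / θ ≤ 1 / Γ ^ 2 := by
    rw [div_le_iff₀ hθ0]
    calc 1 / Γ ^ 5 = 1 / Γ ^ 2 * (1 / Γ ^ 3) := by field_simp
      _ ≤ _ := mul_le_mul_of_nonneg_left h1 (by positivity)
  have a3 : 2 / Γ ^ 2 = 1 / Γ ^ 2 + 1 / Γ ^ 2 := by ring
  linarith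

lemma lam_pow_bound {κ : ℝ} (hκ : 1025 ≤ κ) {n : ℕ} (hnκ : (n : ℝ) = κ ^ 2) :
    Real.exp (-(4 * κ)) ≤ (1 - 2 / κ) ^ n := by
  have hκ0 : 0 < κ := by linarith
  have h1 : Real.exp (-(4 / κ)) ≤ 1 - 2 / κ := by
    have h2 := Real.add_one_le_exp (4 / κ)
    rw [Real.exp_neg]
    refine (inv_anti₀ (by positivity) h2).trans ?_
    rw [inv_le_iff_one_le_mul₀ (by positivity)]
    have h3 : 2 / κ ≤ 1 / 2 := by rw [div_le_div_iff₀ hκ0 (by norm_num)]; linarith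
    have h4 : 0 ≤ 2 / κ := by positivity
    have h5 : 4 / κ = 2 * (2 / κ) := by ring
    rw [h5]
    nlinarith
  refine le_trans (le_of_eq ?_) (pow_le_pow_left₀ (Real.exp_pos _).le h1 n)
  rw [← Real.exp_nat_mul, hnκ]
  congr 1
  field_simp

lemma poly_bound {κ s : ℝ} (hκ : 1025 ≤ κ) (hsκ : s ≤ κ) :
    2 * (κ ^ 2 * ((4 * s + 1) * κ ^ 2)) + 1 ≤ κ ^ 6 := by
  have hκ0 : 0 < κ := by linarith
  have h1 : κ ^ 2 * ((4 * s + 1) * κ ^ 2) ≤ κ ^ 2 * ((5 * κ) * κ ^ 2) := by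
    gcongr; linarith
  have h2 : 1 ≤ κ ^ 5 := one_le_pow₀ (by linarith)
  have h3 : 11 * κ ^ 5 ≤ κ * κ ^ 5 := by gcongr; linarith
  have h4 : κ ^ 2 * ((5 * κ) * κ ^ 2) = 5 * κ ^ 5 := by ring
  have h5 : κ * κ ^ 5 = κ ^ 6 := by ring
  linarith

lemma two_pow_bound {κ : ℝ} {s : ℕ} (hκ : 1025 ≤ κ) (hsκ : (s : ℝ) ≤ κ) :
    ((2 : ℝ) ^ (s + 1)) ≤ Real.exp (2 * κ) := by
  have e3 : (2 : ℝ) ≤ Real.exp 1 := by have := Real.add_one_le_exp 1; linarith
  refine (pow_le_pow_left₀ (by norm_num) e3 _).trans ?_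
  rw [← Real.exp_nat_mul, Real.exp_le_exp]
  push_cast
  linarith

lemma gain_bound {L κ s : ℝ} (hL : 2048 ≤ L) (hκ : 1025 ≤ κ) (hs0 : 0 < s) (hsκ : s ≤ κ) :
    Real.exp (-(L / (32 * s) * (κ ^ 2 - 8 * s) / 2)) ≤ Real.exp (-(L * κ / 64 - L / 8)) := by
  rw [Real.exp_le_exp, neg_le_neg_iff]
  have e1 : L / (32 * s) * (κ ^ 2 - 8 * s) / 2 = L * (κ ^ 2 / s) / 64 - L / 8 := by
    field_simp; ring
  have e2 : κ ≤ κ ^ 2 / s := by
    rw [le_div_iff₀ hs0]; nlinarith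
  rw [e1]
  nlinarith

lemma final_bound {L κ S : ℝ} (hL : 2048 ≤ L) (hκ : 1025 ≤ κ) (hS0 : 0 ≤ S)
    (key2 : Real.exp (-(4 * κ)) * Real.exp (-(L / 2)) ≤
      Real.exp (3 * L) * (S * (S * Real.exp (2 * κ))) * Real.exp (-(L * κ / 64 - L / 8))) :
    Real.exp (L * (1 / 256 * κ)) ≤ S := by
  have key3 : Real.exp (L * (1 / 256 * κ)) ^ 2 ≤ S ^ 2 := by
    have e1 : Real.exp (3 * L) * (S * (S * Real.exp (2 * κ))) * Real.exp (-(L * κ / 64 - L / 8)) =
        S ^ 2 * Real.exp (3 * L + 2 * κ + -(L * κ / 64 - L / 8)) := by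
      rw [Real.exp_add, Real.exp_add]; ring
    rw [e1, ← Real.exp_add, ← div_le_iff₀ (Real.exp_pos _), ← Real.exp_sub] at key2
    refine le_trans ?_ key2
    rw [← Real.exp_nat_mul, Real.exp_le_exp]
    push_cast
    nlinarith
  exact le_of_sq_le_sq₀ key3 hS0

lemma sqrt_facts {n : ℕ} (hn : 9 ≤ n) : 2 ≤ Nat.sqrt n ∧ n / (Nat.sqrt n + 1) ≤ Nat.sqrt n ∧
    (n : ℤ) ≤ Nat.sqrt n * (4 * Nat.sqrt n - 1) := by
  set s := Nat.sqrt n with hsdef
  have hs2 : n < (s + 1) * (s + 1) := Nat.lt_succ_sqrt n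
  have hs3 : 2 ≤ s := by
    by_contra h
    have h9 : n < 9 := by nlinarith
    omega
  refine ⟨hs3, Nat.le_of_lt_succ ((Nat.div_lt_iff_lt_mul (by omega)).mpr hs2), ?_⟩
  have h1 : (n : ℤ) < (s + 1) * (s + 1) := by exact_mod_cast hs2
  have h2 : (2 : ℤ) ≤ s := by exact_mod_cast hs3
  nlinarith

theorem lower_bound {K : Type*} [Field K] (hn : Real.exp 2048 ≤ n)
    (c : Circuit K (Fin n × Fin n × Fin n)) (hc : c.Homogeneous) (hout : c.output = IMM K n n) :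
    (n : ℝ) ^ (1 / 256 * √n) ≤ c.size := by
  have hn0 : (0 : ℝ) < n := (Real.exp_pos _).trans_le hn
  obtain ⟨L, hLdef⟩ : ∃ L, L = Real.log n := ⟨_, rfl⟩
  have hL : 2048 ≤ L := by rw [hLdef, Real.le_log_iff_exp_le hn0]; exact hn
  have hnL : (n : ℝ) = Real.exp L := by rw [hLdef, Real.exp_log hn0]
  obtain ⟨Γ, hΓ⟩ : ∃ Γ, Γ = Real.exp (L / 4) := ⟨_, rfl⟩
  have hΓ0 : 0 < Γ := hΓ ▸ Real.exp_pos _
  have hnΓ : (n : ℝ) = Γ ^ 4 := by
    rw [hnL, hΓ, ← Real.exp_nat_mul]; congr 1; push_cast; ring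
  obtain ⟨κ, hκdef⟩ : ∃ κ, κ = Γ ^ 2 := ⟨_, rfl⟩
  have hκL : κ = Real.exp (L / 2) := by
    rw [hκdef, hΓ, ← Real.exp_nat_mul]; congr 1; push_cast; ring
  have hκ : 1025 ≤ κ := by
    have := Real.add_one_le_exp (L / 2)
    rw [hκL]; linarith
  have hκ0 : 0 < κ := by linarith
  have hnκ : (n : ℝ) = κ ^ 2 := by rw [hnΓ, hκdef]; ring
  have hsqrt : √(n : ℝ) = κ := by rw [hnκ, Real.sqrt_sq hκ0.le]
  have hn9 : 9 ≤ n := by
    have : (9 : ℝ) ≤ n := by nlinarith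
    exact_mod_cast this
  obtain ⟨hs3, hn1, hn2⟩ := sqrt_facts hn9
  have hs1 : Nat.sqrt n * Nat.sqrt n ≤ n := Nat.sqrt_le n
  generalize Nat.sqrt n = s at hs3 hn1 hn2 hs1
  have hsκ : (s : ℝ) ≤ κ := by
    have : (s : ℝ) ^ 2 ≤ κ ^ 2 := by rw [← hnκ, sq]; exact_mod_cast hs1
    exact le_of_sq_le_sq₀ this hκ0.le
  have hs0 : (0 : ℝ) < s := by exact_mod_cast (by omega : 0 < s)
  have hη : L / (32 * s) * (8 * s) = L / 4 := by field_simp; ring
  have hlo : Real.exp (-(L / (32 * s) * (8 * s))) / κ = 1 / Γ ^ 3 := by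
    rw [hη, Real.exp_neg, ← hΓ, hκdef]; field_simp
  have hκ1 : 1 / κ ≤ 1 := by rw [div_le_one hκ0]; linarith
  have key := main_ineq c hc hout (s := s) (by omega) hn1 hn2 (η := L / (32 * s)) (κ := κ)
    (δ := 1 / Γ ^ 5) (lam := 1 - 2 / κ) (by positivity) (by linarith) (n / 2)
    (fun θ θ' h1 h2 h3 h4 => delta_bound hL hΓ hnΓ (hlo ▸ h1) (hlo ▸ h2) (h3.trans hκ1)
      (h4.trans hκ1))
    (fun θ h1 h3 => by
      rw [hlo] at h1
      rw [hκdef] at h3 ⊢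
      exact lam_bound hΓ0 h1 h3)
    (by rw [sub_nonneg, div_le_one hκ0]; linarith)
  have b1 := lam_pow_bound hκ hnκ
  have b2 : 1 / κ = Real.exp (-(L / 2)) := by rw [hκL, Real.exp_neg, one_div]
  have b3 : (2 * (n * ((4 * s + 1) * n)) + 1 : ℝ) ≤ Real.exp (3 * L) := by
    have : Real.exp (3 * L) = κ ^ 6 := by
      rw [hκL, ← Real.exp_nat_mul]; congr 1; push_cast; ring
    rw [this, hnκ]
    exact poly_bound hκ hsκ
  have b4 := two_pow_bound hκ hsκ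
  have b5 := gain_bound hL hκ hs0 hsκ
  rw [← hnκ] at b5
  rw [Real.rpow_def_of_pos hn0, hsqrt, ← hLdef]
  refine final_bound hL hκ (Nat.cast_nonneg _) ?_
  rw [← b2]
  refine le_trans (mul_le_mul_of_nonneg_right b1 (by positivity)) (key.trans ?_)
  push_cast
  gcongr

end Vale.Agent.P346
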