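import Vale.Agent.P346.Circ

/-! The upper bound: the standard two-level block construction. -/

namespace Vale.Agent.P346

open MvPolynomial Finset

lemma exists_circuit {K σ : Type*} [Field K] {L G4 G3 G2 : Type} [Fintype L] [Fintype G4]
    [Fintype G3] [Fintype G2] (label : L → σ ⊕ K) (in4 : G4 → Multiset L) (in3 : G3 → Finset G4)
    (in2 : G2 → Multiset G3) (in1 : Finset G2) (D3 : G3 → ℕ) (D : ℕ)
    (h3 : ∀ g, ∀ a ∈ in3 g,
      ((in4 a).map fun l => Sum.elim (fun _ => 1) (fun _ => 0) (label l)).sum = D3 g)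
    (h1 : ∀ a ∈ in1, ((in2 a).map D3).sum = D)
    (ne4 : ∀ g, in4 g ≠ 0) (ne3 : ∀ g, (in3 g).Nonempty) (ne2 : ∀ g, in2 g ≠ 0)
    (ne1 : in1.Nonempty) :
    ∃ c : Circuit K σ, c.Homogeneous ∧ c.NoEmptyGate ∧
      c.output = ∑ h ∈ in1, ((in2 h).map fun g => ∑ h' ∈ in3 g,
        ((in4 h').map fun l => (Sum.elim X C (label l) : MvPolynomial σ K)).prod).prod ∧
      c.size = 2 * Fintype.card L + Fintype.card G4 + Fintype.card G3 + Fintype.card G2 + 1 := by
  let eL := Fintype.equivFin L
  let e4 := Fintype.equivFin G4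
  let e3 := Fintype.equivFin G3
  let e2 := Fintype.equivFin G2
  let c : Circuit K σ :=
    { nLeaf := Fintype.card L, n5 := Fintype.card L, n4 := Fintype.card G4
      n3 := Fintype.card G3, n2 := Fintype.card G2
      label := fun l => label (eL.symm l)
      in5 := fun g => {g}
      coef5 := fun _ _ => 1
      in4 := fun g => (in4 (e4.symm g)).map eL
      in3 := fun g => (in3 (e3.symm g)).map e4.toEmbedding
      coef3 := fun _ _ => 1
      in2 := fun g => (in2 (e2.symm g)).map e3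
      in1 := in1.map e2.toEmbedding
      coef1 := fun _ => 1 }
  have d4 : ∀ a, c.deg4 (e4 a) =
      ((in4 a).map fun l => Sum.elim (fun _ => 1) (fun _ => 0) (label l)).sum := by
    intro a
    simp [c, Circuit.deg4, Circuit.deg5, Circuit.degLeaf, Function.comp_def]
  have hom3 : ∀ g, ∀ a ∈ c.in3 g, c.deg4 a = D3 (e3.symm g) := by
    intro g a ha
    obtain ⟨a', ha', rfl⟩ := Finset.mem_map.mp ha
    exact (d4 a').trans (h3 _ _ ha')
  have d3 : ∀ g, c.deg3 (e3 g) = D3 g := by
    intro g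
    obtain ⟨a, ha⟩ := ne3 g
    have ha' : e4 a ∈ c.in3 (e3 g) := by simpa [c] using ha
    rw [Circuit.deg3, sup_eq_of_all_eq (fun a ha b hb => by rw [hom3 _ a ha, hom3 _ b hb]) ha',
      hom3 _ _ ha']
    simp
  have hom1 : ∀ a ∈ c.in1, c.deg2 a = D := by
    intro a ha
    obtain ⟨a', ha', rfl⟩ := Finset.mem_map.mp ha
    rw [← h1 a' ha', Circuit.deg2]
    have : c.in2 (e2.toEmbedding a') = (in2 a').map e3 := by simp [c]
    rw [this, Multiset.map_map]
    congr 1
    exact Multiset.map_congr rfl fun g _ => d3 g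
  refine ⟨c, ⟨?_, ?_, ?_⟩, ⟨?_, ?_, ?_, ?_, ?_⟩, ?_, ?_⟩
  · intro g a ha b hb
    rw [Finset.mem_singleton.mp ha, Finset.mem_singleton.mp hb]
  · intro g a ha b hb
    rw [hom3 _ a ha, hom3 _ b hb]
  · intro a ha b hb
    rw [hom1 a ha, hom1 b hb]
  · intro g; exact Finset.singleton_nonempty g
  · intro g; simpa [c] using ne4 _
  · intro g; simpa [c] using ne3 _
  · intro g; simpa [c] using ne2 _
  · simpa [c] using ne1
  · simp [c, Circuit.output, Circuit.val2, Circuit.val3, Circuit.val4, Circuit.val5,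
      Circuit.valLeaf, Function.comp_def]
  · simp only [c, Circuit.size]; ring

lemma path_sum {R : Type*} [CommSemiring R] {n : ℕ} (t : ℕ) :
    ∀ (A : Fin t → Matrix (Fin n) (Fin n) R) (a b : Fin n), (List.ofFn A).prod a b =
      ∑ q ∈ univ.filter (fun q : Fin (t + 1) → Fin n => q 0 = a ∧ q (Fin.last t) = b),
        ∏ p : Fin t, A p (q p.castSucc) (q p.succ) := by
  induction t with
  | zero =>
    intro A a b
    rw [sum_filter, ← (Equiv.funUnique (Fin 1) (Fin n)).symm.sum_comp]
    simp only [List.ofFn_zero, List.prod_nil, Matrix.one_apply, Equiv.funUnique_symm_apply,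
      uniqueElim_const, univ_eq_empty, prod_empty]
    split_ifs with h
    · subst h; simp
    · symm
      apply sum_eq_zero
      intro x _
      rw [if_neg]
      rintro ⟨rfl, rfl⟩
      exact h rfl
  | succ t ih =>
    intro A a b
    rw [List.ofFn_succ, List.prod_cons, Matrix.mul_apply, sum_filter,
      ← (Fin.consEquiv (fun _ : Fin (t + 2) => Fin n)).sum_comp, Fintype.sum_prod_type]
    simp only [ih, sum_filter, mul_sum]
    rw [sum_comm]
    conv_rhs => rw [sum_comm]
    refine sum_congr rfl fun q _ => ?_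
    have e : ∀ x : Fin n, (Fin.consEquiv (fun _ : Fin (t + 2) => Fin n)) (x, q) =
        (Fin.cons x q : Fin (t + 2) → Fin n) := fun x => rfl
    simp only [e, Fin.cons_zero, Fin.prod_univ_succ, ← Fin.succ_last, Fin.cons_succ,
      Fin.castSucc_zero, ← Fin.succ_castSucc]
    by_cases hb : q (Fin.last t) = b <;> simp [hb]

lemma ofFn_eq_range_map {α : Type*} (t : ℕ) (f : ℕ → α) :
    List.ofFn (fun i : Fin t => f i) = (List.range t).map f := by
  apply List.ext_getElem <;> simp

lemma prod_blocks {M : Type*} [Monoid M] (Y : ℕ → M) (t i : ℕ) :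
    ((List.range i).map fun i => ((List.range t).map fun p => Y (i * t + p)).prod).prod =
      ((List.range (i * t)).map Y).prod := by
  induction i with
  | zero => simp
  | succ i ih =>
    rw [List.range_succ, List.map_append, List.prod_append, ih, Nat.succ_mul, List.range_add,
      List.map_append, List.prod_append]
    simp [Function.comp_def]

lemma prod_pad {M : Type*} [Monoid M] (Y : ℕ → M) {n m : ℕ} (hnm : n ≤ m)
    (hY : ∀ j, n ≤ j → Y j = 1) :
    ((List.range m).map Y).prod = ((List.range n).map Y).prod := by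
  obtain ⟨k, rfl⟩ := Nat.exists_eq_add_of_le hnm
  rw [List.range_add, List.map_append, List.prod_append,
    List.prod_eq_one (l := List.map Y (List.map _ (List.range k))), mul_one]
  intro x hx
  simp only [List.map_map, List.mem_map, Function.comp] at hx
  obtain ⟨j, _, rfl⟩ := hx
  exact hY _ (Nat.le_add_right _ _)

lemma exists_upper (K : Type*) [Field K] (n : ℕ) [NeZero n] (t : ℕ) (ht0 : 0 < t)
    (ht : n ≤ t * t) :
    ∃ c : Circuit K (Fin n × Fin n × Fin n), c.Homogeneous ∧ c.NoEmptyGate ∧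
      c.output = IMM K n n ∧
      c.size = 2 * (t * (t * (n * n))) + t * n ^ (t + 1) + t * (n * n) + n ^ (t + 1) + 1 := by
  classical
  let lab : ℕ → Fin n → Fin n → (Fin n × Fin n × Fin n) ⊕ K := fun j a b =>
    if h : j < n then Sum.inl (⟨j, h⟩, a, b) else Sum.inr (if a = b then 1 else 0)
  let Y : ℕ → Matrix (Fin n) (Fin n) (MvPolynomial (Fin n × Fin n × Fin n) K) := fun j =>
    Matrix.of fun a b => Sum.elim X C (lab j a b)
  have hpath : ∀ a b : Fin n, ∃ q : Fin (t + 1) → Fin n, q 0 = a ∧ q (Fin.last t) = b := by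
    intro a b
    refine ⟨fun p => if p = 0 then a else b, by simp, ?_⟩
    have : Fin.last t ≠ 0 := by
      intro h
      have := congrArg Fin.val h
      simp at this
      omega
    simp [this]
  obtain ⟨c, hc1, hc2, hc3, hc4⟩ := exists_circuit (K := K) (σ := Fin n × Fin n × Fin n)
    (L := Fin t × Fin t × Fin n × Fin n) (G4 := Fin t × (Fin (t + 1) → Fin n))
    (G3 := Fin t × Fin n × Fin n) (G2 := Fin (t + 1) → Fin n)
    (fun x => lab (x.1 * t + x.2.1) x.2.2.1 x.2.2.2)
    (fun x => univ.val.map fun p : Fin t => (x.1, p, x.2 p.castSucc, x.2 p.succ))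
    (fun g => (univ.filter fun q : Fin (t + 1) → Fin n =>
      q 0 = g.2.1 ∧ q (Fin.last t) = g.2.2).image fun q => (g.1, q))
    (fun q => univ.val.map fun i : Fin t => (i, q i.castSucc, q i.succ))
    (univ.filter fun q => q 0 = 0 ∧ q (Fin.last t) = 0)
    (fun g => ∑ p : Fin t, if g.1 * t + p < n then 1 else 0)
    (∑ i : Fin t, ∑ p : Fin t, if i * t + p < n then 1 else 0)
    (by
      intro g a ha
      obtain ⟨q, _, rfl⟩ := Finset.mem_image.mp ha
      simp only [Multiset.map_map, Function.comp_def]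
      rw [← Finset.sum_eq_multiset_sum]
      refine sum_congr rfl fun p _ => ?_
      simp only [lab]
      split_ifs <;> rfl)
    (by
      intro q _
      simp only [Multiset.map_map, Function.comp_def]
      rw [← Finset.sum_eq_multiset_sum])
    (fun g => by simpa using ht0.ne')
    (fun g => by
      obtain ⟨q, hq⟩ := hpath g.2.1 g.2.2
      exact ⟨(g.1, q), Finset.mem_image.mpr ⟨q, by simpa using hq, rfl⟩⟩)
    (fun g => by simpa using ht0.ne')
    (by
      obtain ⟨q, hq⟩ := hpath 0 0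
      exact ⟨q, by simpa using hq⟩)
  refine ⟨c, hc1, hc2, ?_, by simpa using hc4⟩
  rw [hc3]
  have e1 : IMM K n n = ((List.range (t * t)).map Y).prod 0 0 := by
    rw [prod_pad Y ht, ← ofFn_eq_range_map]
    · unfold IMM
      simp [Y, lab]
    · intro j hj
      ext1 a b
      simp only [Y, lab, Matrix.of_apply, dif_neg (not_lt.mpr hj), Sum.elim_inr, Matrix.one_apply]
      split_ifs <;> simp
  rw [e1, ← prod_blocks Y t t, ← ofFn_eq_range_map, path_sum]
  refine sum_congr rfl fun q _ => ?_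
  simp only [Multiset.map_map, Function.comp_def]
  rw [← Finset.prod_eq_multiset_prod]
  refine prod_congr rfl fun i _ => ?_
  rw [← ofFn_eq_range_map t (fun p => Y (i * t + p)), path_sum,
    sum_image (fun _ _ _ _ h => (Prod.ext_iff.mp h).2)]
  refine sum_congr rfl fun q' _ => ?_
  simp only [Function.comp_def]
  rw [← Finset.prod_eq_multiset_prod]
  rfl

theorem upper_bound (K : Type*) [Field K] (n : ℕ) [NeZero n] (hn : 16 ≤ n) :
    ∃ c : Circuit K (Fin n × Fin n × Fin n), c.Homogeneous ∧ c.NoEmptyGate ∧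
      c.output = IMM K n n ∧ (c.size : ℝ) ≤ (n : ℝ) ^ (2 * √n) := by
  obtain ⟨c, h1, h2, h3, h4⟩ := exists_upper K n (Nat.sqrt n + 1) (Nat.succ_pos _)
    (Nat.lt_succ_sqrt n).le
  refine ⟨c, h1, h2, h3, ?_⟩
  have hs1 : Nat.sqrt n * Nat.sqrt n ≤ n := Nat.sqrt_le n
  have hs4 : 4 ≤ Nat.sqrt n := Nat.le_sqrt.mpr hn
  generalize Nat.sqrt n = s at hs1 hs4 h4
  have htn : s + 1 ≤ n := by nlinarith
  have hn1 : 1 ≤ n := by omega
  have a1 : (s + 1) * ((s + 1) * (n * n)) ≤ n ^ (s + 3) :=
    calc (s + 1) * ((s + 1) * (n * n)) ≤ n * (n * (n * n)) := by gcongr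
      _ = n ^ 4 := by ring
      _ ≤ _ := Nat.pow_le_pow_right hn1 (by omega)
  have a2 : (s + 1) * n ^ (s + 1 + 1) ≤ n ^ (s + 3) :=
    calc (s + 1) * n ^ (s + 1 + 1) ≤ n * n ^ (s + 1 + 1) := by gcongr
      _ = _ := by ring
  have a3 : (s + 1) * (n * n) ≤ n ^ (s + 3) :=
    calc (s + 1) * (n * n) ≤ n * (n * n) := by gcongr
      _ = n ^ 3 := by ring
      _ ≤ _ := Nat.pow_le_pow_right hn1 (by omega)
  have a4 : n ^ (s + 1 + 1) ≤ n ^ (s + 3) := Nat.pow_le_pow_right hn1 (by omega)
  have a5 : 1 ≤ n ^ (s + 3) := Nat.one_le_pow _ _ hn1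
  have a6 : c.size ≤ n ^ (s + 4) :=
    calc c.size ≤ 6 * n ^ (s + 3) := by omega
      _ ≤ n * n ^ (s + 3) := by gcongr; omega
      _ = _ := by ring
  have a7 : (s : ℝ) ≤ √n := Real.le_sqrt_of_sq_le (by rw [sq]; exact_mod_cast hs1)
  have a8 : (4 : ℝ) ≤ s := by exact_mod_cast hs4
  calc (c.size : ℝ) ≤ (n : ℝ) ^ (s + 4) := by exact_mod_cast a6
    _ = (n : ℝ) ^ ((s + 4 : ℕ) : ℝ) := (Real.rpow_natCast _ _).symm
    _ ≤ _ := Real.rpow_le_rpow_of_exponent_le (by exact_mod_cast hn1) (by push_cast; linarith)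

end Vale.Agent.P346
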